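import Mathlib
import Crest.Agent.N346.Basic2

-- ▼ part N346/Sp/Frame
section

/-!
# Row 346, spinor layer (helper85): Gram-Schmidt frame of a positive definite matrix, smooth in
the matrix and scalar for scalar matrices.
-/

set_option autoImplicit false
open Matrix Finset
open scoped ContDiff

noncomputable section

namespace Crest.Agent.N346.Sp

variable {n : ℕ}

/-- the bilinear form of a matrix -/
def bf (M : Matrix (Fin n) (Fin n) ℝ) (u v : Fin n → ℝ) : ℝ := u ⬝ᵥ M *ᵥ v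

/-- Gram-Schmidt orthogonalisation of the standard basis -/
def gs (M : Matrix (Fin n) (Fin n) ℝ) (k : Fin n) : Fin n → ℝ :=
  Pi.single k 1 - ∑ j : {j // j ∈ Iio k},
    (bf M (gs M j.1) (Pi.single k 1) / bf M (gs M j.1) (gs M j.1)) • gs M j.1
termination_by k
decreasing_by all_goals exact (show j.1 < k from mem_Iio.1 j.2)

theorem gs_def (M : Matrix (Fin n) (Fin n) ℝ) (k : Fin n) : gs M k = Pi.single k 1 -
    ∑ j ∈ Iio k, (bf M (gs M j) (Pi.single k 1) / bf M (gs M j) (gs M j)) • gs M j := by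
  rw [gs, ← sum_attach (Iio k), attach_eq_univ]

theorem gs_tri (M : Matrix (Fin n) (Fin n) ℝ) (k : Fin n) :
    ∀ i, k ≤ i → gs M k i = if i = k then 1 else 0 := by
  induction k using WellFoundedLT.induction with
  | ind k ih =>
    intro i hi
    rw [gs_def, Pi.sub_apply, Finset.sum_apply, Finset.sum_eq_zero, sub_zero, Pi.single_apply]
    intro j hj
    have hj' : j < k := mem_Iio.1 hj
    rw [Pi.smul_apply, ih j hj' i (hj'.le.trans hi), if_neg (hj'.trans_le hi).ne', smul_zero]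

theorem gs_ne_zero (M : Matrix (Fin n) (Fin n) ℝ) (k : Fin n) : gs M k ≠ 0 := fun h => by
  have := gs_tri M k k le_rfl
  rw [h] at this
  simp at this

variable {M : Matrix (Fin n) (Fin n) ℝ}

theorem bf_pos (hM : M.PosDef) {u : Fin n → ℝ} (hu : u ≠ 0) : 0 < bf M u u := by
  simpa [bf] using hM.dotProduct_mulVec_pos hu

theorem bf_symm (hM : M.PosDef) (u v : Fin n → ℝ) : bf M u v = bf M v u := by
  have h : Mᵀ = M := by simpa using hM.isHermitian.eq
  rw [bf, bf, dotProduct_mulVec, ← mulVec_transpose, h, dotProduct_comm]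

theorem gs_orth_lt (hM : M.PosDef) (k : Fin n) : ∀ i, i < k → bf M (gs M i) (gs M k) = 0 := by
  induction k using WellFoundedLT.induction with
  | ind k ih =>
    intro i hi
    have e : bf M (gs M i) (gs M k) = bf M (gs M i) (Pi.single k 1) - ∑ j ∈ Iio k,
        (bf M (gs M j) (Pi.single k 1) / bf M (gs M j) (gs M j)) * bf M (gs M i) (gs M j) := by
      conv_lhs => rw [gs_def M k]
      simp only [bf, mulVec_sub, dotProduct_sub, mulVec_sum, dotProduct_sum, mulVec_smul,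
        dotProduct_smul, smul_eq_mul]
    rw [e, Finset.sum_eq_single i]
    · rw [div_mul_cancel₀ _ (bf_pos hM (gs_ne_zero M i)).ne', sub_self]
    · intro j hj hji
      rcases lt_or_gt_of_ne hji with h | h
      · rw [bf_symm hM (gs M i), ih i hi j h, mul_zero]
      · rw [ih j (mem_Iio.1 hj) i h, mul_zero]
    · intro h; exact absurd (mem_Iio.2 hi) h

theorem gs_orth (hM : M.PosDef) {i k : Fin n} (h : i ≠ k) : bf M (gs M i) (gs M k) = 0 := by
  rcases lt_or_gt_of_ne h with h | h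
  · exact gs_orth_lt hM k i h
  · rw [bf_symm hM, gs_orth_lt hM i k h]

theorem gs_scalar (l : ℝ) (k : Fin n) :
    gs (l • (1 : Matrix (Fin n) (Fin n) ℝ)) k = Pi.single k 1 := by
  induction k using WellFoundedLT.induction with
  | ind k ih =>
    rw [gs_def, Finset.sum_eq_zero, sub_zero]
    intro j hj
    have hj' : j < k := mem_Iio.1 hj
    rw [ih j hj']
    simp [bf, hj'.ne]

/-- The orthonormal frame: column `a` is the `a`-th frame vector. -/
def frame (M : Matrix (Fin n) (Fin n) ℝ) : Matrix (Fin n) (Fin n) ℝ :=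
  of fun i a => gs M a i / √(bf M (gs M a) (gs M a))

theorem frame_orth (hM : M.PosDef) : (frame M)ᵀ * M * frame M = 1 := by
  ext a b
  have e : ((frame M)ᵀ * M * frame M) a b = bf M (gs M a) (gs M b) /
      (√(bf M (gs M a) (gs M a)) * √(bf M (gs M b) (gs M b))) := by
    generalize hα : √(bf M (gs M a) (gs M a)) = α
    generalize hβ : √(bf M (gs M b) (gs M b)) = β
    rw [Matrix.mul_assoc]
    simp only [mul_apply, frame, transpose_apply, of_apply, hα, hβ]
    simp only [bf, dotProduct, mulVec, Finset.mul_sum, Finset.sum_div]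
    exact Finset.sum_congr rfl fun i _ => Finset.sum_congr rfl fun j _ => by ring
  rw [e, one_apply]
  split_ifs with h
  · subst h
    have := bf_pos hM (gs_ne_zero M a)
    rw [Real.mul_self_sqrt this.le, div_self this.ne']
  · rw [gs_orth hM h, zero_div]

theorem frame_scalar (l : ℝ) :
    frame (l • (1 : Matrix (Fin n) (Fin n) ℝ)) = (√l)⁻¹ • (1 : Matrix (Fin n) (Fin n) ℝ) := by
  ext i a
  simp only [frame, of_apply, gs_scalar, Matrix.smul_apply, one_apply, Pi.single_apply]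
  simp [bf, div_eq_inv_mul]

section smooth

variable {V : Type*} [NormedAddCommGroup V] [NormedSpace ℝ V]
  {g : V → Matrix (Fin n) (Fin n) ℝ}

theorem contDiff_bf (hg : ∀ i j, ContDiff ℝ ∞ fun x => g x i j) {u v : V → Fin n → ℝ}
    (hu : ∀ i, ContDiff ℝ ∞ fun x => u x i) (hv : ∀ i, ContDiff ℝ ∞ fun x => v x i) :
    ContDiff ℝ ∞ fun x => bf (g x) (u x) (v x) := by
  simp only [bf, dotProduct, mulVec]
  exact ContDiff.sum fun i _ => (hu i).mul (ContDiff.sum fun j _ => (hg i j).mul (hv j))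

theorem contDiff_gs (hg : ∀ i j, ContDiff ℝ ∞ fun x => g x i j) (hp : ∀ x, (g x).PosDef)
    (k : Fin n) : ∀ i, ContDiff ℝ ∞ fun x => gs (g x) k i := by
  induction k using WellFoundedLT.induction with
  | ind k ih =>
    intro i
    have e : (fun x => gs (g x) k i) = fun x => (Pi.single k 1 : Fin n → ℝ) i - ∑ j ∈ Iio k,
        (bf (g x) (gs (g x) j) (Pi.single k 1) / bf (g x) (gs (g x) j) (gs (g x) j)) *
          gs (g x) j i := by
      funext x
      rw [gs_def, Pi.sub_apply, Finset.sum_apply]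
      rfl
    rw [e]
    refine contDiff_const.sub (ContDiff.sum fun j hj => ?_)
    have h := ih j (mem_Iio.1 hj)
    have h1 : ContDiff ℝ ∞ fun x => bf (g x) (gs (g x) j) (Pi.single k 1) :=
      contDiff_bf hg h (v := fun _ => Pi.single k 1) fun _ => contDiff_const
    have h2 : ContDiff ℝ ∞ fun x => bf (g x) (gs (g x) j) (gs (g x) j) := contDiff_bf hg h h
    exact (h1.div h2 fun x => (bf_pos (hp x) (gs_ne_zero _ j)).ne').mul (h i)

theorem contDiff_frame (hg : ∀ i j, ContDiff ℝ ∞ fun x => g x i j) (hp : ∀ x, (g x).PosDef)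
    (i a : Fin n) : ContDiff ℝ ∞ fun x => frame (g x) i a := by
  have h := contDiff_gs hg hp a
  have h2 := fun x => bf_pos (hp x) (gs_ne_zero (g x) a)
  exact (h i).div ((contDiff_bf hg h h).sqrt fun x => (h2 x).ne')
    fun x => (Real.sqrt_pos.2 (h2 x)).ne'

end smooth

end Crest.Agent.N346.Sp
end
private theorem rz_98763f7653 : type_of% @_root_.Crest.Agent.N346.Sp.gs.eq_1 := @_root_.Crest.Agent.N346.Sp.gs.eq_1 -- L22
end

-- ▼ part N346/Sp/Defs

/-!
# Row 346, spinor layer (helper85): FROZEN definitions and leaf statements.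

Spinors are functions `ℝⁿ → S`, `S` a finite dimensional real inner product space; all vector
fields are written in the smooth orthonormal frame `ev g x a` (Gram-Schmidt frame of `g x`).
-/

set_option autoImplicit false
open MeasureTheory Filter Topology
open scoped ContDiff InnerProductSpace ENNReal
open Crest.GeometryTopology.CoordMetric
open Crest.MathPhysics.ExteriorData

noncomputable section

namespace Crest.Agent.N346.Sp

variable {n : ℕ}

/-- The `a`-th vector of the orthonormal frame at `x`. -/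
def ev (g : MetricField n) (x : E n) (a : Fin n) : E n := WithLp.toLp 2 fun i => frame (g x) i a

/-- `√g · div_g V` for the vector field with frame components `V`. -/
def dvf (g : MetricField n) (V : E n → Fin n → ℝ) (x : E n) : ℝ :=
  divE (fun y i => volDensity g y * ∑ a, frame (g y) i a * V y a) x

/-- The Riemannian measure. -/
def nu (g : MetricField n) : Measure (E n) :=
  volume.withDensity fun x => ENNReal.ofReal (volDensity g x)

section
variable {S : Type} [NormedAddCommGroup S] [InnerProductSpace ℝ S]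

/-- Clifford relations for skew operators. -/
structure Cl (c : Fin n → S →L[ℝ] S) : Prop where
  skew : ∀ a u v, ⟪c a u, v⟫_ℝ = -⟪u, c a v⟫_ℝ
  anti : ∀ a b u, c a (c b u) + c b (c a u) = (if a = b then (-2 : ℝ) else 0) • u

/-- Clifford multiplication by the vector with frame components `β`. -/
def cv (c : Fin n → S →L[ℝ] S) (β : E n) (u : S) : S := ∑ a, β a • c a u

/-- Covariant derivative in the direction of the `a`-th frame vector. -/
def nab (g : MetricField n) (A : Fin n → E n → S →L[ℝ] S) (a : Fin n) (ψ : E n → S) (x : E n) : S :=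
  fderiv ℝ ψ x (ev g x a) + A a x (ψ x)

/-- The Dirac operator. -/
def dir (g : MetricField n) (c : Fin n → S →L[ℝ] S) (A : Fin n → E n → S →L[ℝ] S) (ψ : E n → S)
    (x : E n) : S := ∑ a, c a (nab g A a ψ x)

/-- Spin geometry of `(ℝⁿ, g)` in the global frame. -/
structure SpinData (g : MetricField n) (c : Fin n → S →L[ℝ] S) (A : Fin n → E n → S →L[ℝ] S) :
    Prop where
  cl : Cl c
  A_smooth : ∀ a, ContDiff ℝ ∞ (A a)
  A_skew : ∀ a x u v, ⟪A a x u, v⟫_ℝ = -⟪u, A a x v⟫_ℝ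
  /-- formal self-adjointness -/
  sa : ∀ φ ψ : E n → S, ContDiff ℝ ∞ φ → ContDiff ℝ ∞ ψ → ∀ x,
    dvf g (fun y a => ⟪φ y, c a (ψ y)⟫_ℝ) x =
      volDensity g x * (⟪φ x, dir g c A ψ x⟫_ℝ - ⟪dir g c A φ x, ψ x⟫_ℝ)
  /-- Lichnerowicz-Witten identity -/
  wit : ∀ ψ : E n → S, ContDiff ℝ ∞ ψ → ∀ x,
    dvf g (fun y a => ⟪ψ y, nab g A a ψ y⟫_ℝ + ⟪ψ y, c a (dir g c A ψ y)⟫_ℝ) x =
      volDensity g x * ((∑ a, ‖nab g A a ψ x‖ ^ 2) + scalarCurv g x / 4 * ‖ψ x‖ ^ 2
        - ‖dir g c A ψ x‖ ^ 2)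
  /-- the connection where `g = e^{2w} δ` -/
  flat : ∀ (w : E n → ℝ) (x : E n), ContDiffAt ℝ ∞ w x →
    (∀ᶠ y in 𝓝 x, g y = Real.exp (2 * w y) • (1 : Matrix (Fin n) (Fin n) ℝ)) → ∀ a u,
    A a x u = (-(Real.exp (-w x)) / 4) •
      (c a (cv c (euclidGrad w x) u) - cv c (euclidGrad w x) (c a u))

/-- smooth compactly supported spinors -/
def Tst (ξ : E n → S) : Prop := ContDiff ℝ ∞ ξ ∧ HasCompactSupport ξ

/-- gradient (frame components) of the norm of a spinor; `0` where the spinor vanishes -/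
def gnorm (g : MetricField n) (A : Fin n → E n → S →L[ℝ] S) (ψ : E n → S) (x : E n) : E n :=
  WithLp.toLp 2 fun a => ⟪ψ x, nab g A a ψ x⟫_ℝ / ‖ψ x‖

end

/-! ### Leaves -/

/-- L1: existence of the spin data. -/
def ExistStmt : Prop := ∀ (n : ℕ) (g : MetricField n), IsRiemannianOn g Set.univ →
  ∃ (S : Type) (_ : NormedAddCommGroup S) (_ : InnerProductSpace ℝ S) (_ : FiniteDimensional ℝ S)
    (_ : Nontrivial S) (c : Fin n → S →L[ℝ] S) (A : Fin n → E n → S →L[ℝ] S), SpinData g c A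

/-- L2 (S6, pure algebra): weighted Kato inequality, `T a = ∇ₐ ψ`. -/
def KatoStmt : Prop := ∀ (n : ℕ), 3 ≤ n → ∀ (S : Type) [NormedAddCommGroup S]
  [InnerProductSpace ℝ S] (c : Fin n → S →L[ℝ] S), Cl c → ∀ (T : Fin n → S) (ψ : S) (β G : E n),
  (∀ a, G a = ⟪ψ, T a⟫_ℝ / ‖ψ‖) →
  ‖G‖ ^ 2 + (1 / ((n : ℝ) - 2)) * (2 * ‖ψ‖ * ⟪β, G⟫_ℝ - ‖β‖ ^ 2 * ‖ψ‖ ^ 2) ≤
    (∑ a, ‖T a‖ ^ 2) - ‖∑ a, c a (T a)‖ ^ 2 +
      ‖(∑ a, c a (T a)) + (1 / ((n : ℝ) - 2)) • cv c β ψ‖ ^ 2

/-- L3 (Friedrichs): an `L²` weak solution of `D Θ = h` is, after cutting off, a limit of test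
spinors in the graph norm. -/
def FriedStmt : Prop := ∀ (n : ℕ) (g : MetricField n), IsRiemannianOn g Set.univ →
  ∀ (S : Type) [NormedAddCommGroup S] [InnerProductSpace ℝ S] [FiniteDimensional ℝ S]
  (c : Fin n → S →L[ℝ] S) (A : Fin n → E n → S →L[ℝ] S), SpinData g c A →
  ∀ Θ h : E n → S, MemLp Θ 2 (nu g) → MemLp h 2 (nu g) →
  (∀ ξ, Tst ξ → ∫ x, ⟪Θ x, dir g c A ξ x⟫_ℝ ∂nu g = ∫ x, ⟪h x, ξ x⟫_ℝ ∂nu g) →
  ∀ η : E n → ℝ, ContDiff ℝ ∞ η → HasCompactSupport η → ∀ δ : ℝ, 0 < δ → ∃ ξ, Tst ξ ∧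
    ∫ x, ‖ξ x - η x • Θ x‖ ^ 2 ∂nu g ≤ δ ∧
    ∫ x, ‖dir g c A ξ x - (η x • h x + ∑ a, fderiv ℝ η x (ev g x a) • c a (Θ x))‖ ^ 2 ∂nu g ≤ δ

/-- L4 (method of continuity for dense range). -/
def ContStmt : Prop := ∀ (T H : Type) [AddCommGroup T] [Module ℝ T] [NormedAddCommGroup H]
  [InnerProductSpace ℝ H] [CompleteSpace H] (L B : T →ₗ[ℝ] H) (C : ℝ),
  (∀ τ ∈ Set.Icc (0 : ℝ) 1, ∀ ξ, (1 - τ) * ‖B ξ‖ ^ 2 ≤ C * ‖L ξ + τ • B ξ‖ ^ 2) →
  (∀ Θ : H, (∀ ξ, ⟪Θ, L ξ⟫_ℝ = 0) → Θ = 0) →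
  ∀ (y : H) (δ : ℝ), 0 < δ → ∃ ξ, ‖y + (L ξ + B ξ)‖ ≤ δ

end Crest.Agent.N346.Sp
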