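import Mathlib
import Crest.Agent.N346.Sp.Defs
import Crest.Agent.R247.Bo1_84

-- ▼ part N346/Sp/Cliff
section

/-!
# Row 346, spinor layer (helper85): real Clifford matrices and their algebra.
-/

set_option autoImplicit false
open Matrix

namespace Crest.Agent.N346.Sp

/-- Skew matrices `c a` over a commutative ring with `c a * c b + c b * c a = -2 δ`. -/
structure IsCliff {κ ι R : Type*} [DecidableEq κ] [Fintype ι] [DecidableEq ι] [CommRing R]
    (c : κ → Matrix ι ι R) : Prop where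
  skew : ∀ a, (c a)ᵀ = - c a
  anti : ∀ a b, c a * c b + c b * c a = if a = b then (-2 : R) • (1 : Matrix ι ι R) else 0

/-- The index type of the spinor space in dimension `n`. -/
def Idx : ℕ → Type
  | 0 => Unit
  | n + 1 => Idx n ⊕ Idx n

instance Idx.fintype : ∀ n, Fintype (Idx n)
  | 0 => inferInstanceAs (Fintype Unit)
  | n + 1 => letI := Idx.fintype n; inferInstanceAs (Fintype (Idx n ⊕ Idx n))

instance Idx.decEq : ∀ n, DecidableEq (Idx n)
  | 0 => inferInstanceAs (DecidableEq Unit)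
  | n + 1 => letI := Idx.decEq n; inferInstanceAs (DecidableEq (Idx n ⊕ Idx n))

instance Idx.inhabited : ∀ n, Inhabited (Idx n)
  | 0 => inferInstanceAs (Inhabited Unit)
  | n + 1 => ⟨Sum.inl (Idx.inhabited n).default⟩

theorem cliff_step {ι : Type} [Fintype ι] [DecidableEq ι] {n : ℕ} (c : Fin n → Matrix ι ι ℝ)
    (hc : IsCliff c) : ∃ c' : Fin (n + 1) → Matrix (ι ⊕ ι) (ι ⊕ ι) ℝ, IsCliff c' := by
  let J : Matrix (ι ⊕ ι) (ι ⊕ ι) ℝ := fromBlocks 0 (-1) 1 0
  let Z : Fin n → Matrix (ι ⊕ ι) (ι ⊕ ι) ℝ := fun a => fromBlocks (c a) 0 0 (- c a)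
  have hJJ : J * J + J * J = (-2 : ℝ) • (1 : Matrix (ι ⊕ ι) (ι ⊕ ι) ℝ) := by
    simp only [J, fromBlocks_multiply, fromBlocks_add, ← fromBlocks_one, fromBlocks_smul]
    congr 1 <;> simp [two_smul]
  have hJZ : ∀ a, J * Z a + Z a * J = 0 := fun a => by
    simp only [J, Z, fromBlocks_multiply, fromBlocks_add, ← fromBlocks_zero]
    congr 1 <;> simp
  have hZZ : ∀ a b, Z a * Z b + Z b * Z a =
      if a = b then (-2 : ℝ) • (1 : Matrix (ι ⊕ ι) (ι ⊕ ι) ℝ) else 0 := fun a b => by
    have h := hc.anti a b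
    simp only [Z, fromBlocks_multiply, fromBlocks_add]
    split_ifs at h ⊢ with hab
    · rw [← fromBlocks_one, fromBlocks_smul]
      congr 1 <;> simp [h]
    · rw [← fromBlocks_zero]
      congr 1 <;> simp [h]
  refine ⟨Fin.cons J Z, fun a => ?_, fun a b => ?_⟩
  · refine Fin.cases ?_ (fun a => ?_) a
    · simp [J, fromBlocks_transpose, fromBlocks_neg]
    · simp [Z, fromBlocks_transpose, fromBlocks_neg, hc.skew]
  · refine Fin.cases ?_ (fun a => ?_) a <;> refine Fin.cases ?_ (fun b => ?_) b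
    · simpa using hJJ
    · simpa [(Fin.succ_ne_zero b).symm] using hJZ b
    · simpa [Fin.succ_ne_zero a, add_comm] using hJZ a
    · simpa using hZZ a b

/-- Real Clifford matrices exist in every dimension. -/
theorem exists_cliff (n : ℕ) : ∃ c : Fin n → Matrix (Idx n) (Idx n) ℝ, IsCliff c := by
  induction n with
  | zero => exact ⟨Fin.elim0, fun a => a.elim0, fun a => a.elim0⟩
  | succ n ih =>
    obtain ⟨c, hc⟩ := ih
    exact cliff_step c hc

section Algebra

variable {κ ι R : Type*} [Fintype κ] [DecidableEq κ] [Fintype ι] [DecidableEq ι] [CommRing R]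
  {c : κ → Matrix ι ι R}

omit [Fintype κ] in
theorem IsCliff.map {S : Type*} [CommRing S] (hc : IsCliff c) (f : R →+* S) :
    IsCliff fun a => (c a).map f := by
  refine ⟨fun a => ?_, fun a b => ?_⟩
  · rw [← transpose_map, hc.skew]; ext i j; simp
  · rw [← Matrix.map_mul, ← Matrix.map_mul, ← Matrix.map_add _ (map_add f), hc.anti]
    split_ifs
    · ext i j
      by_cases h : i = j <;> simp [h, map_ofNat]
    · ext i j; simp


omit [Fintype κ] in
/-- commutator of a bivector with a vector -/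
theorem IsCliff.comm_pair (hc : IsCliff c) (p q b : κ) :
    c p * c q * c b - c b * (c p * c q) =
      (if q = b then (-2 : R) • c p else 0) + (if p = b then (2 : R) • c q else 0) := by
  have h1 : c p * c q * c b - c b * (c p * c q) =
      c p * (c q * c b + c b * c q) - (c p * c b + c b * c p) * c q := by noncomm_ring
  rw [h1, hc.anti, hc.anti]
  split_ifs <;> simp

/-- Clifford multiplication by a vector with frame components `v`. -/
def cl (c : κ → Matrix ι ι R) (v : κ → R) : Matrix ι ι R := ∑ a, v a • c a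

/-- The quadratic element `∑ ω p q c p c q`. -/
def quad (c : κ → Matrix ι ι R) (ω : Matrix κ κ R) : Matrix ι ι R :=
  ∑ p, ∑ q, ω p q • (c p * c q)

omit [DecidableEq κ] [DecidableEq ι] in
theorem quad_add (ω ω' : Matrix κ κ R) : quad c (ω + ω') = quad c ω + quad c ω' := by
  simp [quad, add_smul, Finset.sum_add_distrib]

omit [DecidableEq κ] [DecidableEq ι] in
theorem quad_sub (ω ω' : Matrix κ κ R) : quad c (ω - ω') = quad c ω - quad c ω' := by
  simp [quad, sub_smul, Finset.sum_sub_distrib]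

omit [DecidableEq κ] [DecidableEq ι] in
theorem quad_smul (r : R) (ω : Matrix κ κ R) : quad c (r • ω) = r • quad c ω := by
  simp [quad, Finset.smul_sum, smul_smul]

omit [DecidableEq κ] [DecidableEq ι] in
theorem quad_sum {α : Type*} (s : Finset α) (ω : α → Matrix κ κ R) :
    quad c (∑ i ∈ s, ω i) = ∑ i ∈ s, quad c (ω i) := by
  classical
  induction s using Finset.induction_on with
  | empty => simp [quad]
  | insert a s ha ih => rw [Finset.sum_insert ha, Finset.sum_insert ha, quad_add, ih]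

theorem IsCliff.cl_skew (hc : IsCliff c) (v : κ → R) : (cl c v)ᵀ = - cl c v := by
  simp [cl, transpose_sum, hc.skew]

theorem IsCliff.cl_anti (hc : IsCliff c) (v w : κ → R) :
    cl c v * cl c w + cl c w * cl c v = ((-2 : R) * ∑ a, v a * w a) • (1 : Matrix ι ι R) := by
  have h1 : cl c v * cl c w + cl c w * cl c v =
      ∑ a, ∑ b, (v a * w b) • (c a * c b + c b * c a) := by
    simp only [cl, Finset.sum_mul, Finset.mul_sum, smul_mul_smul_comm, smul_add,
      Finset.sum_add_distrib]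
    congr 1
    rw [Finset.sum_comm]
    exact Finset.sum_congr rfl fun a _ => Finset.sum_congr rfl fun b _ => by rw [mul_comm]
  rw [h1]
  simp only [hc.anti, smul_ite, smul_zero, Finset.sum_ite_eq, Finset.mem_univ, if_true,
    smul_smul, ← Finset.sum_smul, Finset.mul_sum]
  congr 1
  exact Finset.sum_congr rfl fun a _ => by ring

theorem IsCliff.quad_skew (hc : IsCliff c) {ω : Matrix κ κ R} (hω : ωᵀ = - ω) :
    (quad c ω)ᵀ = - quad c ω := by
  have h : ∀ p q, ω q p = - ω p q := fun p q => by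
    have := congrFun (congrFun hω p) q
    simpa using this
  simp only [quad, transpose_sum, transpose_smul, transpose_mul, hc.skew, neg_mul_neg]
  rw [Finset.sum_comm, ← Finset.sum_neg_distrib]
  refine Finset.sum_congr rfl fun p _ => ?_
  rw [← Finset.sum_neg_distrib]
  refine Finset.sum_congr rfl fun q _ => ?_
  rw [h p q, neg_smul]

theorem IsCliff.quad_comm (hc : IsCliff c) {ω : Matrix κ κ R} (hω : ωᵀ = - ω) (b : κ) :
    quad c ω * c b - c b * quad c ω = (-4 : R) • ∑ a, ω a b • c a := by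
  have h : ∀ p q, ω q p = - ω p q := fun p q => by
    have := congrFun (congrFun hω p) q
    simpa using this
  have h1 : quad c ω * c b - c b * quad c ω =
      ∑ p, ∑ q, ω p q • (c p * c q * c b - c b * (c p * c q)) := by
    simp only [quad, Finset.sum_mul, Finset.mul_sum, smul_mul_assoc, mul_smul_comm, smul_sub,
      Finset.sum_sub_distrib]
  rw [h1]
  simp only [hc.comm_pair, smul_add, Finset.sum_add_distrib, smul_ite, smul_zero]
  rw [Finset.sum_comm (f := fun p q => if p = b then ω p q • (2 : R) • c q else 0)]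
  simp only [Finset.sum_ite_eq', Finset.mem_univ, if_true, Finset.smul_sum, smul_smul,
    ← Finset.sum_add_distrib, ← add_smul]
  refine Finset.sum_congr rfl fun p _ => ?_
  rw [h p b]
  congr 1
  ring

theorem IsCliff.quad_comm_quad (hc : IsCliff c) {ω : Matrix κ κ R} (hω : ωᵀ = - ω)
    (ω' : Matrix κ κ R) :
    quad c ω * quad c ω' - quad c ω' * quad c ω = (-4 : R) • quad c (ω * ω' - ω' * ω) := by
  have h : ∀ p q, ω q p = - ω p q := fun p q => by
    have := congrFun (congrFun hω p) q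
    simpa using this
  have h1 : quad c ω * quad c ω' - quad c ω' * quad c ω =
      ∑ p, ∑ q, ω' p q • ((quad c ω * c p - c p * quad c ω) * c q +
        c p * (quad c ω * c q - c q * quad c ω)) := by
    conv_lhs => rw [show quad c ω' = ∑ p, ∑ q, ω' p q • (c p * c q) from rfl]
    simp only [Finset.sum_mul, Finset.mul_sum, smul_mul_assoc, mul_smul_comm,
      ← Finset.sum_sub_distrib, ← smul_sub]
    refine Finset.sum_congr rfl fun p _ => Finset.sum_congr rfl fun q _ => ?_
    congr 1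
    noncomm_ring
  rw [h1, quad_sub]
  simp only [hc.quad_comm hω]
  simp only [smul_mul_assoc, mul_smul_comm, smul_add, Finset.sum_add_distrib,
    smul_sub, Finset.sum_mul, Finset.mul_sum, Finset.smul_sum, smul_smul, quad, mul_apply,
    Finset.sum_smul]
  rw [sub_eq_add_neg]
  congr 1
  · rw [Finset.sum_comm]
    conv_rhs => rw [Finset.sum_comm]
    refine Finset.sum_congr rfl fun q _ => ?_
    rw [Finset.sum_comm]
    refine Finset.sum_congr rfl fun a _ => Finset.sum_congr rfl fun p _ => ?_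
    congr 1; ring
  · rw [← Finset.sum_neg_distrib]
    refine Finset.sum_congr rfl fun p _ => ?_
    rw [Finset.sum_comm, ← Finset.sum_neg_distrib]
    refine Finset.sum_congr rfl fun a _ => ?_
    rw [← Finset.sum_neg_distrib]
    refine Finset.sum_congr rfl fun q _ => ?_
    rw [← neg_smul, h a q]
    congr 1; ring

theorem cancel_nat {M : Type*} [AddCommGroup M] [Module ℝ M] (k : ℕ) (hk : k ≠ 0) {x y : M}
    (h : k • x = k • y) : x = y := by
  have h1 : (k : ℝ) • x = (k : ℝ) • y := by rwa [Nat.cast_smul_eq_nsmul, Nat.cast_smul_eq_nsmul]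
  have h2 := congrArg (fun z => (k : ℝ)⁻¹ • z) h1
  simpa [smul_smul, inv_mul_cancel₀ (Nat.cast_ne_zero.2 hk : (k : ℝ) ≠ 0)] using h2

variable [Algebra ℝ R]

omit [Fintype κ] in
theorem IsCliff.sq (hc : IsCliff c) (a : κ) : c a * c a = -1 := by
  refine cancel_nat 2 two_ne_zero ?_
  have := hc.anti a a
  rw [if_pos rfl] at this
  rw [two_nsmul, this]
  module



/-- cubic contraction for a tensor with vanishing cyclic sum -/
theorem IsCliff.cubic (hc : IsCliff c) (T : κ → κ → κ → R) (hs : ∀ q a b, T q a b = - T q b a)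
    (hB : ∀ q a b, T q a b + T a b q + T b q a = 0) :
    ∑ a, ∑ b, ∑ q, T q a b • (c a * c b * c q) = (-2 : R) • ∑ a, (∑ b, T b a b) • c a := by
  set S := ∑ a, ∑ b, ∑ q, T q a b • (c a * c b * c q) with hS
  set τ := ∑ a, (∑ b, T b a b) • c a with hτ
  have hd : ∀ q a, T q a a = 0 := fun q a => cancel_nat 2 two_ne_zero (by
    rw [two_nsmul, smul_zero]; nth_rewrite 1 [hs]; ring)
  have hτ1 : ∑ a, ∑ b, T b a b • c a = τ := by simp only [hτ, Finset.sum_smul]
  have hτ2 : ∑ a, ∑ b, T a a b • c b = - τ := by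
    rw [← hτ1, Finset.sum_comm, ← Finset.sum_neg_distrib]
    refine Finset.sum_congr rfl fun a _ => ?_
    rw [← Finset.sum_neg_distrib]
    exact Finset.sum_congr rfl fun b _ => by rw [hs b b a, neg_smul]
  have e2 : ∑ a, ∑ b, ∑ q, T a b q • (c a * c b * c q) = S + (4 : R) • τ := by
    have h1 : ∑ a, ∑ b, ∑ q, T a b q • (c a * c b * c q) =
        ∑ a, ∑ b, ∑ q, T q a b • (c q * (c a * c b)) := by
      rw [Finset.sum_comm]
      refine Finset.sum_congr rfl fun a _ => ?_
      rw [Finset.sum_comm]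
      simp only [mul_assoc]
    have h2 : ∀ a b q, c q * (c a * c b) = c a * c b * c q -
        ((if b = q then (-2 : R) • c a else 0) + (if a = q then (2 : R) • c b else 0)) :=
      fun a b q => by rw [← hc.comm_pair]; abel
    rw [h1]
    simp only [h2, smul_sub, smul_add, Finset.sum_sub_distrib, Finset.sum_add_distrib, smul_ite,
      smul_zero, Finset.sum_ite_eq, Finset.mem_univ, if_true, smul_comm _ (2 : R),
      smul_comm _ (-2 : R), ← Finset.smul_sum, hτ1, hτ2, ← hS]
    module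
  have e3 : ∑ a, ∑ b, ∑ q, T b q a • (c a * c b * c q) = S + (2 : R) • τ := by
    have h1 : ∑ a, ∑ b, ∑ q, T b q a • (c a * c b * c q) =
        ∑ a, ∑ b, ∑ q, T q a b • (c b * c q * c a) := by
      conv_rhs => rw [Finset.sum_comm]
      refine Finset.sum_congr rfl fun a _ => ?_
      rw [Finset.sum_comm]
    have h2 : ∀ a b q, c b * c q * c a = c a * c b * c q +
        ((if q = a then (-2 : R) • c b else 0) + (if b = a then (2 : R) • c q else 0)) :=
      fun a b q => by rw [← hc.comm_pair, mul_assoc (c a)]; abel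
    have h3 : ∑ a, ∑ b, ∑ q, T q a b • (if b = a then (2 : R) • c q else 0) = 0 := by
      refine Finset.sum_eq_zero fun a _ => Finset.sum_eq_zero fun b _ =>
        Finset.sum_eq_zero fun q _ => ?_
      split_ifs with h
      · subst h; rw [hd, zero_smul]
      · rw [smul_zero]
    have h6 : ∑ a, ∑ b, ∑ q, T q a b • (c b * c q * c a) =
        ∑ a, ∑ b, ∑ q, T q a b • (c a * c b * c q +
        ((if q = a then (-2 : R) • c b else 0) + (if b = a then (2 : R) • c q else 0))) :=
      Finset.sum_congr rfl fun a _ => Finset.sum_congr rfl fun b _ =>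
        Finset.sum_congr rfl fun q _ => by rw [h2 a b q]
    rw [h1, h6]
    simp only [smul_add, Finset.sum_add_distrib, h3]
    have h4 : ∀ (t : R) (M : Matrix ι ι R), t • (-2 : R) • M = (-2 : R) • t • M :=
      fun t M => smul_comm _ _ _
    simp only [smul_ite, smul_zero, Finset.sum_ite_eq', Finset.mem_univ, if_true]
    have h5 : ∑ a, ∑ b, T a a b • (-2 : R) • c b = (-2 : R) • - τ := by
      rw [← hτ2, Finset.smul_sum]
      refine Finset.sum_congr rfl fun a _ => ?_
      rw [Finset.smul_sum]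
      exact Finset.sum_congr rfl fun b _ => h4 _ _
    rw [h5, ← hS]
    module
  have e0 : S + ∑ a, ∑ b, ∑ q, T a b q • (c a * c b * c q) +
      ∑ a, ∑ b, ∑ q, T b q a • (c a * c b * c q) = 0 := by
    simp only [hS, ← Finset.sum_add_distrib, ← add_smul, hB, zero_smul, Finset.sum_const_zero]
  rw [e2, e3] at e0
  refine cancel_nat 3 three_ne_zero ?_
  rw [← sub_eq_zero, ← e0]
  module

/-- The algebraic heart of the Lichnerowicz formula. -/
theorem IsCliff.lich (hc : IsCliff c) (Ω : κ → κ → Matrix κ κ R)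
    (h1 : ∀ a b, (Ω a b)ᵀ = - Ω a b) (h2 : ∀ a b, Ω a b = - Ω b a)
    (hB : ∀ p q a b, Ω a b p q + Ω b q p a + Ω q a p b = 0) :
    ∑ a, ∑ b, c a * c b * quad c (Ω a b) =
      ((-2 : R) * ∑ a, ∑ b, Ω b a b a) • (1 : Matrix ι ι R) := by
  have hs : ∀ a b p q, Ω a b q p = - Ω a b p q := fun a b p q => by
    have := congrFun (congrFun (h1 a b) p) q
    simpa using this
  have hs2 : ∀ a b p q, Ω a b p q = - Ω b a p q := fun a b p q => by
    rw [h2 a b]; simp
  have hd : ∀ a b p, Ω a b p p = 0 := fun a b p => cancel_nat 2 two_ne_zero (by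
    rw [two_nsmul, smul_zero]; nth_rewrite 1 [hs]; ring)
  have e1 : ∑ a, ∑ b, c a * c b * quad c (Ω a b) =
      - ∑ p, (∑ a, ∑ b, ∑ q, Ω a b p q • (c a * c b * c q)) * c p := by
    simp only [quad, Finset.mul_sum, Finset.sum_mul, mul_smul_comm, smul_mul_assoc]
    rw [Finset.sum_comm (f := fun p a => ∑ b, ∑ q, Ω a b p q • (c a * c b * c q * c p)),
      ← Finset.sum_neg_distrib]
    refine Finset.sum_congr rfl fun a _ => ?_
    rw [Finset.sum_comm (f := fun p b => ∑ q, Ω a b p q • (c a * c b * c q * c p)),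
      ← Finset.sum_neg_distrib]
    refine Finset.sum_congr rfl fun b _ => ?_
    rw [Finset.sum_comm, ← Finset.sum_neg_distrib]
    refine Finset.sum_congr rfl fun p _ => ?_
    rw [← Finset.sum_neg_distrib]
    refine Finset.sum_congr rfl fun q _ => ?_
    rw [hs a b p q, neg_smul, mul_assoc (c a * c b)]
  have e2 : ∀ p, ∑ a, ∑ b, ∑ q, Ω a b p q • (c a * c b * c q) =
      (-2 : R) • ∑ a, (∑ b, Ω a b p b) • c a := fun p =>
    hc.cubic (fun q a b => Ω a b p q) (fun q a b => hs2 a b p q) (fun q a b => hB p q a b)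
  set ρ : κ → κ → R := fun p a => ∑ b, Ω a b p b with hρ
  have hρs : ∀ p a, ρ p a = ρ a p := fun p a => by
    refine Finset.sum_congr rfl fun b _ => ?_
    have h := hB b p a b
    rw [hd, add_zero, hs a b p b, hs2 b p, hs p b a b] at h
    linear_combination -h
  have e3 : ∑ p, ∑ a, ρ p a • (c a * c p) = (- ∑ a, ρ a a) • (1 : Matrix ι ι R) := by
    refine cancel_nat 2 two_ne_zero ?_
    have : ∑ p, ∑ a, ρ p a • (c a * c p) = ∑ p, ∑ a, ρ p a • (c p * c a) := by
      rw [Finset.sum_comm]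
      exact Finset.sum_congr rfl fun p _ => Finset.sum_congr rfl fun a _ => by rw [hρs]
    rw [two_nsmul]
    nth_rewrite 2 [this]
    simp only [← Finset.sum_add_distrib, ← smul_add, hc.anti, smul_ite, smul_zero,
      Finset.sum_ite_eq', Finset.mem_univ, if_true, smul_comm _ (-2 : R), ← Finset.smul_sum,
      ← Finset.sum_smul]
    module
  have e4 : ∑ a, ρ a a = ∑ a, ∑ b, Ω b a b a := by
    refine Finset.sum_congr rfl fun a _ => Finset.sum_congr rfl fun b _ => ?_
    rw [hs2 a b, hs b a b a, neg_neg]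
  rw [e1]
  simp only [e2, smul_mul_assoc, Finset.sum_mul, ← Finset.smul_sum]
  change - ((-2 : R) • ∑ p, ∑ a, ρ p a • (c a * c p)) = _
  rw [e3, e4]
  module

end Algebra

end Crest.Agent.N346.Sp
end

-- ▼ part N346/Sp/Alg
section

/-!
# Row 346, spinor layer (helper85): Levi-Civita connection in an orthonormal frame, over a
commutative algebra with commuting derivations.
-/

set_option autoImplicit false
open Matrix

noncomputable section

namespace Crest.Agent.N346.Sp

variable {R : Type*} [CommRing R] [Algebra ℝ R]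

section dM

variable {l m k : Type*} (D : Derivation ℝ R R)

/-- entrywise derivative of a matrix -/
def dM (M : Matrix l m R) : Matrix l m R := M.map D

@[simp] theorem dM_apply (M : Matrix l m R) (a : l) (b : m) : dM D M a b = D (M a b) := rfl

theorem dM_add (M N : Matrix l m R) : dM D (M + N) = dM D M + dM D N := by
  ext a b; simp


theorem dM_neg (M : Matrix l m R) : dM D (- M) = - dM D M := by
  ext a b; simp


theorem dM_smul (r : R) (M : Matrix l m R) : dM D (r • M) = D r • M + r • dM D M := by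
  ext a b; simp; ring

theorem dM_rsmul (r : ℝ) (M : Matrix l m R) : dM D (r • M) = r • dM D M := by
  ext a b; simp

theorem dM_sum {α : Type*} (s : Finset α) (M : α → Matrix l m R) :
    dM D (∑ i ∈ s, M i) = ∑ i ∈ s, dM D (M i) := by
  ext a b; simp [Matrix.sum_apply]

theorem dM_transpose (M : Matrix l m R) : dM D Mᵀ = (dM D M)ᵀ := rfl

theorem dM_mul [Fintype m] (M : Matrix l m R) (N : Matrix m k R) :
    dM D (M * N) = dM D M * N + M * dM D N := by
  ext a b
  simp only [dM_apply, mul_apply, map_sum, Derivation.leibniz, smul_eq_mul, Matrix.add_apply,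
    ← Finset.sum_add_distrib]
  exact Finset.sum_congr rfl fun j _ => by ring

theorem dM_one [DecidableEq l] : dM D (1 : Matrix l l R) = 0 := by
  ext a b
  by_cases h : a = b <;> simp [h, one_apply]

end dM

/-- A metric with inverse and orthonormal frame over a differential algebra. -/
structure Geo {n : Type*} [Fintype n] [DecidableEq n] (D : n → Derivation ℝ R R) where
  G : Matrix n n R
  Gi : Matrix n n R
  E : Matrix n n R
  comm : ∀ i j a, D i (D j a) = D j (D i a)
  symm : Gᵀ = G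
  inv : Gi * G = 1
  orth : Eᵀ * G * E = 1

namespace Geo

variable {n : Type*} [Fintype n] [DecidableEq n] {D : n → Derivation ℝ R R} (X : Geo D)

include X in
theorem dM_comm {l m : Type*} (i j : n) (M : Matrix l m R) :
    dM (D i) (dM (D j) M) = dM (D j) (dM (D i) M) := by
  ext a b; exact X.comm i j _

theorem G_symm (i j : n) : X.G i j = X.G j i := (congrFun (congrFun X.symm j) i)

theorem inv' : X.G * X.Gi = 1 := mul_eq_one_comm.1 X.inv

/-- the coframe -/
def θ : Matrix n n R := X.Eᵀ * X.G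

theorem θE : X.θ * X.E = 1 := X.orth

theorem Eθ : X.E * X.θ = 1 := mul_eq_one_comm.1 X.θE

theorem EEt : X.E * X.Eᵀ = X.Gi := by
  have h : X.E * X.Eᵀ * X.G = 1 := by rw [Matrix.mul_assoc]; exact X.Eθ
  rw [← Matrix.mul_one (X.E * X.Eᵀ), ← X.inv', ← Matrix.mul_assoc, h, Matrix.one_mul]

theorem Gi_symm (i j : n) : X.Gi i j = X.Gi j i := by
  simp only [← X.EEt, mul_apply, transpose_apply]
  exact Finset.sum_congr rfl fun a _ => mul_comm _ _


/-- Christoffel symbols, `Γ i k j = Γᵏᵢⱼ`. -/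
def Γ (i : n) : Matrix n n R := fun k j =>
  (1 / 2 : ℝ) • ∑ l, X.Gi k l * (D i (X.G j l) + D j (X.G i l) - D l (X.G i j))

theorem Γ_symm (i k j : n) : X.Γ i k j = X.Γ j k i := by
  simp only [Γ]
  congr 1
  exact Finset.sum_congr rfl fun l _ => by rw [X.G_symm i j]; ring

theorem G_Γ (i : n) : X.G * X.Γ i =
    of fun l j => (1 / 2 : ℝ) • (D i (X.G j l) + D j (X.G i l) - D l (X.G i j)) := by
  have h : X.Γ i = X.Gi * (of fun l j =>
      (1 / 2 : ℝ) • (D i (X.G j l) + D j (X.G i l) - D l (X.G i j))) := by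
    ext k j
    simp only [Γ, mul_apply, of_apply, Finset.smul_sum, mul_smul_comm]
  rw [h, ← Matrix.mul_assoc, X.inv', Matrix.one_mul]

theorem dG (i : n) : dM (D i) X.G = (X.Γ i)ᵀ * X.G + X.G * X.Γ i := by
  have h : (X.Γ i)ᵀ * X.G = (X.G * X.Γ i)ᵀ := by rw [transpose_mul, X.symm]
  rw [h, G_Γ]
  ext l j
  simp only [dM_apply, Matrix.add_apply, transpose_apply, of_apply]
  rw [X.G_symm j l, ← smul_add]
  have : D i (X.G l j) + D l (X.G i j) - D j (X.G i l) +
      (D i (X.G l j) + D j (X.G i l) - D l (X.G i j)) = (2 : ℝ) • D i (X.G l j) := by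
    rw [two_smul]; ring
  rw [this, smul_smul]
  norm_num

theorem dGi (i : n) : dM (D i) X.Gi = - (X.Γ i * X.Gi) - X.Gi * (X.Γ i)ᵀ := by
  have h := congrArg (dM (D i)) X.inv
  rw [dM_mul, dM_one, dG] at h
  have h2 : dM (D i) X.Gi = (dM (D i) X.Gi * X.G) * X.Gi := by
    rw [Matrix.mul_assoc, X.inv', Matrix.mul_one]
  rw [h2, eq_neg_of_add_eq_zero_left h]
  have h3 : X.Gi * ((X.Γ i)ᵀ * X.G + X.G * X.Γ i) * X.Gi =
      X.Gi * (X.Γ i)ᵀ * (X.G * X.Gi) + (X.Gi * X.G) * X.Γ i * X.Gi := by noncomm_ring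
  rw [Matrix.neg_mul, h3, X.inv, X.inv']
  noncomm_ring

/-- connection matrices in the frame -/
def ω (i : n) : Matrix n n R := X.θ * (dM (D i) X.E + X.Γ i * X.E)

theorem Eω (i : n) : X.E * X.ω i = dM (D i) X.E + X.Γ i * X.E := by
  rw [ω, ← Matrix.mul_assoc, X.Eθ, Matrix.one_mul]

theorem ω_skew (i : n) : (X.ω i)ᵀ = - X.ω i := by
  have h := congrArg (dM (D i)) X.orth
  rw [dM_mul, dM_mul, dM_one, dG, dM_transpose] at h
  rw [eq_neg_iff_add_eq_zero, ← h]
  simp only [ω, θ, transpose_mul, transpose_add, transpose_transpose, X.symm]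
  noncomm_ring

theorem dθ (i : n) : dM (D i) X.θ = - (X.θ * dM (D i) X.E * X.θ) := by
  have h := congrArg (dM (D i)) X.θE
  rw [dM_mul, dM_one] at h
  have h2 : dM (D i) X.θ = (dM (D i) X.θ * X.E) * X.θ := by
    rw [Matrix.mul_assoc, X.Eθ, Matrix.mul_one]
  rw [h2, eq_neg_of_add_eq_zero_left h, Matrix.neg_mul]

/-- curvature matrices, `Rm i j k l = Rᵏ_{l i j}` -/
def Rm (i j : n) : Matrix n n R :=
  dM (D i) (X.Γ j) - dM (D j) (X.Γ i) + X.Γ i * X.Γ j - X.Γ j * X.Γ i

/-- curvature of the frame connection -/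
def Ω (i j : n) : Matrix n n R :=
  dM (D i) (X.ω j) - dM (D j) (X.ω i) + (X.ω i * X.ω j - X.ω j * X.ω i)

theorem Ω_eq (i j : n) : X.Ω i j = X.θ * X.Rm i j * X.E := by
  have h : ∀ i j, dM (D i) (X.ω j) + X.ω i * X.ω j = X.θ * (dM (D i) (dM (D j) X.E) +
      dM (D i) (X.Γ j) * X.E + X.Γ j * dM (D i) X.E + X.Γ i * dM (D j) X.E +
      X.Γ i * X.Γ j * X.E) := fun i j => by
    have e1 : X.ω i * X.ω j = X.θ * dM (D i) X.E * X.θ * (dM (D j) X.E + X.Γ j * X.E) +
        X.θ * X.Γ i * (X.E * X.ω j) := by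
      simp only [ω]; noncomm_ring
    rw [e1, X.Eω]
    simp only [ω, dM_mul, dM_add, dθ]
    noncomm_ring
  have e : X.Ω i j = (dM (D i) (X.ω j) + X.ω i * X.ω j) - (dM (D j) (X.ω i) + X.ω j * X.ω i) := by
    simp only [Ω]; abel
  rw [e, h, h, X.dM_comm i j, Rm]
  noncomm_ring

theorem Ω_skew (i j : n) : (X.Ω i j)ᵀ = - X.Ω i j := by
  simp only [Ω, transpose_add, transpose_sub, transpose_mul, ← dM_transpose, ω_skew, dM_neg]
  noncomm_ring

theorem Ω_anti (i j : n) : X.Ω i j = - X.Ω j i := by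
  simp only [Ω]; abel

theorem bianchi (i j k l : n) : X.Rm i j k l + X.Rm j l k i + X.Rm l i k j = 0 := by
  have h : ∀ a b c, (X.Γ a * X.Γ b) k c = (X.Γ a * X.Γ c) k b := fun a b c => by
    simp only [mul_apply]
    exact Finset.sum_congr rfl fun m _ => by rw [X.Γ_symm b m c]
  simp only [Rm, Matrix.add_apply, Matrix.sub_apply, dM_apply]
  rw [h i j l, h j l i, h l i j, X.Γ_symm j k l, X.Γ_symm l k i, X.Γ_symm i k j,
    X.Γ_symm l k j, X.Γ_symm i k l]
  ring

/-- the Ricci tensor, written as in the Prelude -/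
def ric (i j : n) : R :=
  (∑ k, D k (X.Γ i k j)) - D j (∑ k, X.Γ k k i) + (∑ k, ∑ l, X.Γ k k l * X.Γ i l j)
    - (∑ k, ∑ l, X.Γ j k l * X.Γ k l i)

/-- the scalar curvature -/
def scal : R := ∑ i, ∑ j, X.Gi i j * X.ric i j

theorem ric_eq (l j : n) : X.ric l j = ∑ i, X.Rm i j i l := by
  simp only [ric, Rm, Matrix.add_apply, Matrix.sub_apply, dM_apply, mul_apply, map_sum, Finset.sum_add_distrib,
    Finset.sum_sub_distrib, X.Γ_symm l _ j]

/-- frame components of the curvature -/
def Ωf (a b : n) : Matrix n n R := ∑ i, ∑ j, (X.E i a * X.E j b) • X.Ω i j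

theorem Ωf_skew (a b : n) : (X.Ωf a b)ᵀ = - X.Ωf a b := by
  simp only [Ωf, transpose_sum, transpose_smul, Ω_skew, smul_neg, Finset.sum_neg_distrib]

theorem Ωf_anti (a b : n) : X.Ωf a b = - X.Ωf b a := by
  simp only [Ωf]
  rw [Finset.sum_comm, ← Finset.sum_neg_distrib]
  refine Finset.sum_congr rfl fun i _ => ?_
  rw [← Finset.sum_neg_distrib]
  exact Finset.sum_congr rfl fun j _ => by rw [X.Ω_anti j i, smul_neg, mul_comm]

theorem Ωf_apply (a b p q : n) : X.Ωf a b p q =
    ∑ k, X.θ p k * ∑ i, ∑ j, ∑ l, X.E i a * X.E j b * X.E l q * X.Rm i j k l := by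
  simp only [Ωf, Ω_eq, Matrix.sum_apply, Matrix.smul_apply, smul_eq_mul, mul_apply, Finset.mul_sum,
    Finset.sum_mul]
  conv_rhs => rw [Finset.sum_comm]
  refine Finset.sum_congr rfl fun i _ => ?_
  conv_rhs => rw [Finset.sum_comm]
  refine Finset.sum_congr rfl fun j _ => ?_
  conv_rhs => rw [Finset.sum_comm]
  exact Finset.sum_congr rfl fun l _ => Finset.sum_congr rfl fun k _ => by ring

theorem Ωf_bianchi (p q a b : n) : X.Ωf a b p q + X.Ωf b q p a + X.Ωf q a p b = 0 := by
  simp only [Ωf_apply, ← Finset.sum_add_distrib, ← mul_add]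
  refine Finset.sum_eq_zero fun k _ => ?_
  have e2 : ∑ i, ∑ j, ∑ l, X.E i b * X.E j q * X.E l a * X.Rm i j k l =
      ∑ i, ∑ j, ∑ l, X.E i a * X.E j b * X.E l q * X.Rm j l k i := by
    conv_rhs => rw [Finset.sum_comm]
    refine Finset.sum_congr rfl fun i _ => ?_
    conv_rhs => rw [Finset.sum_comm]
    exact Finset.sum_congr rfl fun j _ => Finset.sum_congr rfl fun l _ => by ring
  have e3 : ∑ i, ∑ j, ∑ l, X.E i q * X.E j a * X.E l b * X.Rm i j k l =
      ∑ i, ∑ j, ∑ l, X.E i a * X.E j b * X.E l q * X.Rm l i k j := by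
    rw [Finset.sum_comm]
    refine Finset.sum_congr rfl fun i _ => ?_
    rw [Finset.sum_comm]
    exact Finset.sum_congr rfl fun j _ => Finset.sum_congr rfl fun l _ => by ring
  simp only [Finset.sum_add_distrib]
  rw [e2, e3]
  simp only [← Finset.sum_add_distrib, ← mul_add, X.bianchi, mul_zero, Finset.sum_const_zero]

theorem Ωf_scal : ∑ a, ∑ b, X.Ωf b a b a = X.scal := by
  have h1 : ∀ i k, ∑ b, X.E i b * X.θ b k = if i = k then 1 else 0 := fun i k => by
    rw [← mul_apply, X.Eθ, one_apply]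
  have h2 : ∀ j l, ∑ a, X.E j a * X.E l a = X.Gi l j := fun j l => by
    rw [X.Gi_symm, ← X.EEt, mul_apply]; rfl
  have e : ∑ a, ∑ b, X.Ωf b a b a = ∑ l, ∑ j, ∑ i, ∑ k,
      (∑ a, X.E j a * X.E l a) * ((∑ b, X.E i b * X.θ b k) * X.Rm i j k l) := by
    simp only [Ωf_apply, Finset.mul_sum, Finset.sum_mul, ← Finset.sum_product']
    refine Finset.sum_bij' (fun x _ => (x.2.2.2.2.2, x.2.2.2.2.1, x.2.2.2.1, x.2.2.1, x.2.1, x.1))
      (fun y _ => (y.2.2.2.2.2, y.2.2.2.2.1, y.2.2.2.1, y.2.2.1, y.2.1, y.1)) (by simp) (by simp)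
      (by simp) (by simp) fun x _ => by ring
  rw [e]
  simp only [h1, h2, ite_mul, one_mul, zero_mul, scal, ric_eq, ← Finset.mul_sum,
    Finset.sum_ite_eq, Finset.mem_univ, if_true]

end Geo

end Crest.Agent.N346.Sp
end
end

-- ▼ part N346/Sp/Lich
section

/-!
# Row 346, spinor layer (helper85): spin connection, Dirac operator, Lichnerowicz formula over a
differential algebra.
-/

set_option autoImplicit false
open Matrix

noncomputable section

namespace Crest.Agent.N346.Sp

variable {R : Type*} [CommRing R] [Algebra ℝ R]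
variable {n : Type*} [Fintype n] [DecidableEq n] {D : n → Derivation ℝ R R}
variable {ι : Type*} [Fintype ι] [DecidableEq ι]

/-- Geometry together with constant Clifford matrices. -/
structure Spin (D : n → Derivation ℝ R R) (ι : Type*) [Fintype ι] [DecidableEq ι]
    extends Geo D where
  c : n → Matrix ι ι R
  cliff : IsCliff c
  const : ∀ i a, dM (D i) (c a) = 0

namespace Spin

variable (X : Spin D ι) {m m' : Type*}

/-- Clifford multiplication by `dxʲ`. -/
def cc (j : n) : Matrix ι ι R := cl X.c (X.E j)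

/-- The spin connection. -/
def A (i : n) : Matrix ι ι R := (-1 / 4 : ℝ) • quad X.c (X.ω i)

theorem cc_skew (j : n) : (X.cc j)ᵀ = - X.cc j := X.cliff.cl_skew _

theorem A_skew (i : n) : (X.A i)ᵀ = - X.A i := by
  rw [A, transpose_smul, X.cliff.quad_skew (X.ω_skew i), smul_neg]

theorem cc_anti (i j : n) :
    X.cc i * X.cc j + X.cc j * X.cc i = ((-2 : R) * X.Gi i j) • (1 : Matrix ι ι R) := by
  rw [cc, cc, X.cliff.cl_anti, ← X.EEt, mul_apply]; rfl

theorem d_cl (i : n) (v : n → R) : dM (D i) (cl X.c v) = cl X.c fun a => D i (v a) := by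
  simp only [cl, dM_sum, dM_smul, X.const, smul_zero, add_zero]

theorem d_quad (i : n) (w : Matrix n n R) : dM (D i) (quad X.c w) = quad X.c (dM (D i) w) := by
  simp only [quad, dM_sum, dM_smul, dM_mul, X.const, smul_zero, add_zero, Matrix.zero_mul,
    Matrix.mul_zero, dM_apply]

omit [Fintype ι] [DecidableEq ι] in
theorem four_smul (M : Matrix ι ι R) : (-1 / 4 : ℝ) • (-4 : R) • M = M := by
  have : (-4 : R) • M = (-4 : ℝ) • M := by
    rw [← algebraMap_smul R (-4 : ℝ) M, map_neg, map_ofNat]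
  rw [this, smul_smul]; norm_num

theorem A_comm_c (i b : n) : X.A i * X.c b - X.c b * X.A i = ∑ a, X.ω i a b • X.c a := by
  rw [A, smul_mul_assoc, mul_smul_comm, ← smul_sub, X.cliff.quad_comm (X.ω_skew i), four_smul]

/-- compatibility of the spin connection with Clifford multiplication -/
theorem compat (i j : n) :
    dM (D i) (X.cc j) + (X.A i * X.cc j - X.cc j * X.A i) = - ∑ k, X.Γ i j k • X.cc k := by
  have hs : ∀ a b, X.ω i a b = - X.ω i b a := fun a b => by
    have := congrFun (congrFun (X.ω_skew i) b) a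
    simpa using this
  have h1 : X.A i * X.cc j - X.cc j * X.A i = - cl X.c ((X.E * X.ω i) j) := by
    have : X.A i * X.cc j - X.cc j * X.A i =
        ∑ b, X.E j b • (X.A i * X.c b - X.c b * X.A i) := by
      simp only [cc, cl, Finset.mul_sum, Finset.sum_mul, mul_smul_comm, smul_mul_assoc, smul_sub,
        Finset.sum_sub_distrib]
    rw [this]
    simp only [A_comm_c, cl, mul_apply, Finset.smul_sum, Finset.sum_smul, smul_smul]
    rw [Finset.sum_comm, ← Finset.sum_neg_distrib]
    refine Finset.sum_congr rfl fun a _ => ?_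
    rw [← Finset.sum_neg_distrib]
    exact Finset.sum_congr rfl fun b _ => by rw [hs a b, mul_neg, neg_smul]
  have h2 : ∑ k, X.Γ i j k • X.cc k = cl X.c ((X.Γ i * X.E) j) := by
    simp only [cc, cl, mul_apply, Finset.smul_sum, Finset.sum_smul, smul_smul]
    rw [Finset.sum_comm]
  rw [h1, h2, X.Eω, cc, d_cl]
  simp only [cl, Matrix.add_apply, dM_apply, add_smul, Finset.sum_add_distrib]
  abel

/-- curvature of the spin connection -/
def F (i j : n) : Matrix ι ι R :=
  dM (D i) (X.A j) - dM (D j) (X.A i) + (X.A i * X.A j - X.A j * X.A i)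

theorem F_eq (i j : n) : X.F i j = (-1 / 4 : ℝ) • quad X.c (X.Ω i j) := by
  have h : X.A i * X.A j - X.A j * X.A i =
      (-1 / 4 : ℝ) • quad X.c (X.ω i * X.ω j - X.ω j * X.ω i) := by
    have : X.A i * X.A j - X.A j * X.A i = (-1 / 4 : ℝ) • (-1 / 4 : ℝ) •
        (quad X.c (X.ω i) * quad X.c (X.ω j) - quad X.c (X.ω j) * quad X.c (X.ω i)) := by
      simp only [A, smul_mul_assoc, mul_smul_comm, smul_sub]
    rw [this, X.cliff.quad_comm_quad (X.ω_skew i), four_smul]
  rw [F, h, Geo.Ω, quad_add]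
  simp only [A, dM_rsmul, d_quad, smul_add, smul_sub, quad_sub]

theorem cc_F : ∑ i, ∑ j, X.cc i * X.cc j * X.F i j =
    ((1 / 2 : ℝ) • X.scal) • (1 : Matrix ι ι R) := by
  have h : ∑ i, ∑ j, X.cc i * X.cc j * quad X.c (X.Ω i j) =
      ∑ a, ∑ b, X.c a * X.c b * quad X.c (X.Ωf a b) := by
    simp only [cc, cl, Geo.Ωf, quad_sum, quad_smul, Finset.mul_sum, Finset.sum_mul, mul_smul_comm,
      smul_mul_assoc, Finset.smul_sum, smul_smul, ← Finset.sum_product']
    refine Finset.sum_bij' (fun x _ => (x.2.2.2, x.2.2.1, x.1, x.2.1))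
      (fun y _ => (y.2.2.1, y.2.2.2, y.2.1, y.1)) (by simp) (by simp) (by simp) (by simp)
      fun x _ => by simp only [mul_comm]
  simp only [F_eq, mul_smul_comm, ← Finset.smul_sum]
  rw [h, X.cliff.lich _ X.Ωf_skew X.Ωf_anti X.Ωf_bianchi, X.Ωf_scal, ← smul_assoc]
  congr 1
  have : (-2 : R) * X.scal = (-2 : ℝ) • X.scal := by
    rw [Algebra.smul_def, map_neg, map_ofNat]
  rw [this, smul_smul]; norm_num

/-- covariant derivative of spinors (columns of a matrix) -/
def nab (i : n) (ψ : Matrix ι m R) : Matrix ι m R := dM (D i) ψ + X.A i * ψ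

/-- the Dirac operator -/
def dir (ψ : Matrix ι m R) : Matrix ι m R := ∑ i, X.cc i * X.nab i ψ

theorem nab_sum {α : Type*} (i : n) (s : Finset α) (ψ : α → Matrix ι m R) :
    X.nab i (∑ a ∈ s, ψ a) = ∑ a ∈ s, X.nab i (ψ a) := by
  simp only [nab, dM_sum, Matrix.mul_sum, Finset.sum_add_distrib]

theorem nab_cc (i j : n) (ψ : Matrix ι m R) :
    X.nab i (X.cc j * ψ) = X.cc j * X.nab i ψ - ∑ k, X.Γ i j k • (X.cc k * ψ) := by
  have h := congrArg (· * ψ) (X.compat i j)
  simp only [Matrix.add_mul, Matrix.sub_mul, Matrix.neg_mul, Matrix.sum_mul, Matrix.smul_mul,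
    Matrix.mul_assoc] at h
  simp only [nab, dM_mul, Matrix.mul_add]
  rw [sub_eq_add_neg, ← h]
  abel

theorem nab_comm (i j : n) (ψ : Matrix ι m R) :
    X.nab i (X.nab j ψ) - X.nab j (X.nab i ψ) = X.F i j * ψ := by
  simp only [nab, F, dM_add, dM_mul, Matrix.mul_add, Matrix.add_mul, Matrix.sub_mul,
    Matrix.mul_assoc, X.dM_comm i j ψ]
  abel

/-- second covariant derivative -/
def hess (i j : n) (ψ : Matrix ι m R) : Matrix ι m R :=
  X.nab i (X.nab j ψ) - ∑ k, X.Γ i k j • X.nab k ψ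

/-- **Lichnerowicz formula.** -/
theorem dir_dir (ψ : Matrix ι m R) :
    X.dir (X.dir ψ) = - (∑ i, ∑ j, X.Gi i j • X.hess i j ψ) + ((1 / 4 : ℝ) • X.scal) • ψ := by
  have h1 : X.dir (X.dir ψ) = ∑ i, ∑ j, X.cc i * X.cc j * X.hess i j ψ := by
    simp only [dir, nab_sum, nab_cc, hess, Matrix.mul_sum, Matrix.mul_sub, Finset.sum_sub_distrib,
      Matrix.mul_assoc, Matrix.mul_smul]
    congr 1
    refine Finset.sum_congr rfl fun i _ => ?_
    rw [Finset.sum_comm]
  have h2 : ∀ i j, X.hess j i ψ = X.hess i j ψ - X.F i j * ψ := fun i j => by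
    rw [← nab_comm]
    simp only [hess, X.Γ_symm j _ i]
    abel
  have h3 : X.dir (X.dir ψ) = ∑ i, ∑ j, X.cc j * X.cc i * X.hess i j ψ +
      ∑ i, ∑ j, X.cc i * X.cc j * X.F i j * ψ := by
    rw [h1]
    conv_rhs => rw [Finset.sum_comm]
    simp only [← Finset.sum_add_distrib]
    refine Finset.sum_congr rfl fun i _ => Finset.sum_congr rfl fun j _ => ?_
    rw [h2 i j, Matrix.mul_sub, Matrix.mul_assoc _ (X.F i j)]
    abel
  refine cancel_nat 2 two_ne_zero ?_
  rw [two_nsmul]
  nth_rewrite 1 [h1]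
  rw [h3, ← add_assoc]
  simp only [← Finset.sum_add_distrib, ← Matrix.add_mul, cc_anti, ← Matrix.sum_mul, cc_F,
    Matrix.smul_mul, Matrix.one_mul, mul_smul, ← Finset.smul_sum]
  have : (-2 : R) • ∑ i, ∑ j, X.Gi i j • X.hess i j ψ =
      (-2 : ℝ) • ∑ i, ∑ j, X.Gi i j • X.hess i j ψ := by
    rw [← algebraMap_smul R (-2 : ℝ), map_neg, map_ofNat]
  rw [this, smul_assoc, smul_assoc]
  generalize ∑ i, ∑ j, X.Gi i j • X.hess i j ψ = S
  generalize X.scal • ψ = T
  module

theorem d_pair (i : n) (φ : Matrix ι m' R) (ψ : Matrix ι m R) :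
    dM (D i) (φᵀ * ψ) = (X.nab i φ)ᵀ * ψ + φᵀ * X.nab i ψ := by
  simp only [nab, dM_mul, dM_transpose, transpose_add, transpose_mul, A_skew, Matrix.mul_add,
    Matrix.add_mul, Matrix.mul_neg, Matrix.neg_mul, Matrix.mul_assoc]
  abel

/-- covariant divergence of a (matrix valued) vector field -/
def dv (V : n → Matrix m' m R) : Matrix m' m R :=
  ∑ i, (dM (D i) (V i) + (∑ k, X.Γ k k i) • V i)

/-- formal self-adjointness of the Dirac operator -/
theorem dv_cc (φ : Matrix ι m' R) (ψ : Matrix ι m R) :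
    X.dv (fun i => φᵀ * (X.cc i * ψ)) = φᵀ * X.dir ψ - (X.dir φ)ᵀ * ψ := by
  simp only [dv, X.d_pair, nab_cc, dir, transpose_sum, transpose_mul, cc_skew, Matrix.mul_sub,
    Matrix.mul_sum, Matrix.sum_mul, Matrix.mul_smul, Finset.sum_add_distrib,
    Finset.sum_sub_distrib, Finset.sum_smul, Matrix.mul_neg, Matrix.neg_mul, Matrix.mul_assoc,
    Finset.sum_neg_distrib]
  rw [Finset.sum_comm (f := fun i k => X.Γ k k i • (φᵀ * (X.cc i * ψ)))]
  abel

theorem div_Gi (j : n) : ∑ i, (D i (X.Gi i j) + (∑ k, X.Γ k k i) * X.Gi i j) =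
    - ∑ i, ∑ k, X.Gi i k * X.Γ i j k := by
  have h : ∀ i, D i (X.Gi i j) = - (∑ k, X.Γ i i k * X.Gi k j) - ∑ k, X.Gi i k * X.Γ i j k :=
    fun i => by
      have := congrFun (congrFun (X.dGi i) i) j
      simpa [mul_apply] using this
  simp only [h, Finset.sum_add_distrib, Finset.sum_sub_distrib, Finset.sum_neg_distrib,
    Finset.sum_mul]
  rw [Finset.sum_comm (f := fun i k => X.Γ k k i * X.Gi i j)]
  abel

/-- **Bochner identity in divergence form.** -/
theorem dv_nab (φ : Matrix ι m' R) (ψ : Matrix ι m R) :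
    X.dv (fun i => ∑ j, X.Gi i j • (φᵀ * X.nab j ψ)) =
      ∑ i, ∑ j, X.Gi i j • ((X.nab i φ)ᵀ * X.nab j ψ) +
        ((1 / 4 : ℝ) • X.scal) • (φᵀ * ψ) - φᵀ * X.dir (X.dir ψ) := by
  have h1 : X.dv (fun i => ∑ j, X.Gi i j • (φᵀ * X.nab j ψ)) =
      ∑ j, (∑ i, (D i (X.Gi i j) + (∑ k, X.Γ k k i) * X.Gi i j)) • (φᵀ * X.nab j ψ) +
      ∑ i, ∑ j, X.Gi i j • ((X.nab i φ)ᵀ * X.nab j ψ + φᵀ * X.nab i (X.nab j ψ)) := by
    simp only [dv, dM_sum, dM_smul, X.d_pair, Finset.sum_add_distrib, Finset.smul_sum, smul_smul,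
      add_smul, Finset.sum_smul (s := Finset.univ) (f := fun i => D i (X.Gi i _)),
      Finset.sum_smul (s := Finset.univ) (f := fun i => (∑ k, X.Γ k k i) * X.Gi i _)]
    rw [Finset.sum_comm (f := fun i j => D i (X.Gi i j) • (φᵀ * X.nab j ψ)),
      Finset.sum_comm (f := fun i j => ((∑ k, X.Γ k k i) * X.Gi i j) • (φᵀ * X.nab j ψ))]
    abel
  have h2 : ∑ j, (∑ i, ∑ k, X.Gi i k * X.Γ i j k) • (φᵀ * X.nab j ψ) =
      ∑ i, ∑ j, ∑ k, X.Gi i j • X.Γ i k j • (φᵀ * X.nab k ψ) := by
    simp only [Finset.sum_smul, smul_smul]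
    rw [Finset.sum_comm]
    exact Finset.sum_congr rfl fun i _ => Finset.sum_comm
  rw [h1, dir_dir]
  simp only [div_Gi, neg_smul, Finset.sum_neg_distrib, h2]
  simp only [hess, Matrix.mul_add, Matrix.mul_neg,
    Matrix.mul_sum, Matrix.mul_smul, Matrix.mul_sub, smul_add, smul_sub, Finset.sum_add_distrib,
    Finset.sum_sub_distrib, Finset.smul_sum]
  abel

end Spin

end Crest.Agent.N346.Sp
end
end

-- ▼ part N346/Sp/Smooth
section

/-!
# Row 346, spinor layer (helper85): the differential algebra of smooth functions and the spin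
geometry of a Riemannian metric on `ℝⁿ` over it.
-/

set_option autoImplicit false
open Matrix
open scoped ContDiff InnerProductSpace Topology
open Crest.GeometryTopology.CoordMetric
open Crest.MathPhysics.ExteriorData
open Crest.Agent.N346.Bs

noncomputable section

namespace Crest.Agent.N346.Sp

/-! ### frame versions of the algebraic identities -/

namespace Spin

variable {R : Type*} [CommRing R] [Algebra ℝ R]
variable {n : Type*} [Fintype n] [DecidableEq n] {D : n → Derivation ℝ R R}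
variable {ι : Type*} [Fintype ι] [DecidableEq ι] (X : Spin D ι) {m m' : Type*}

/-- covariant derivative along the `a`-th frame vector -/
def nabf (a : n) (ψ : Matrix ι m R) : Matrix ι m R := ∑ i, X.E i a • X.nab i ψ

theorem dir_eq (ψ : Matrix ι m R) : X.dir ψ = ∑ a, X.c a * X.nabf a ψ := by
  simp only [dir, nabf, cc, cl, Matrix.sum_mul, Matrix.mul_sum, Matrix.smul_mul, Matrix.mul_smul]
  rw [Finset.sum_comm]

theorem Gi_eq (i j : n) : X.Gi i j = ∑ a, X.E i a * X.E j a := by
  rw [← X.EEt, mul_apply]; rfl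

theorem sa' (φ : Matrix ι m' R) (ψ : Matrix ι m R) :
    X.dv (fun i => ∑ a, X.E i a • (φᵀ * (X.c a * ψ))) = φᵀ * X.dir ψ - (X.dir φ)ᵀ * ψ := by
  rw [← dv_cc]
  congr 1
  funext i
  simp only [cc, cl, Matrix.sum_mul, Matrix.mul_sum, Matrix.smul_mul, Matrix.mul_smul]

theorem wit' (ψ : Matrix ι m R) :
    X.dv (fun i => ∑ a, X.E i a • (ψᵀ * X.nabf a ψ + ψᵀ * (X.c a * X.dir ψ))) =
      ∑ a, (X.nabf a ψ)ᵀ * X.nabf a ψ + ((1 / 4 : ℝ) • X.scal) • (ψᵀ * ψ)
        - (X.dir ψ)ᵀ * X.dir ψ := by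
  have h1 : ∀ i, ∑ a, X.E i a • (ψᵀ * X.nabf a ψ) = ∑ j, X.Gi i j • (ψᵀ * X.nab j ψ) := fun i => by
    simp only [nabf, Gi_eq, Matrix.mul_sum, Matrix.mul_smul, Finset.smul_sum, Finset.sum_smul,
      smul_smul]
    rw [Finset.sum_comm]
  have h2 : ∑ a, (X.nabf a ψ)ᵀ * X.nabf a ψ =
      ∑ i, ∑ j, X.Gi i j • ((X.nab i ψ)ᵀ * X.nab j ψ) := by
    simp only [nabf, Gi_eq, transpose_sum, transpose_smul, Matrix.mul_sum, Matrix.sum_mul,
      Matrix.mul_smul, Matrix.smul_mul, Finset.smul_sum, Finset.sum_smul, smul_smul]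
    rw [Finset.sum_comm]
    conv_rhs => rw [Finset.sum_comm]
    refine Finset.sum_congr rfl fun i _ => ?_
    rw [Finset.sum_comm]
    exact Finset.sum_congr rfl fun j _ => Finset.sum_congr rfl fun a _ => by rw [mul_comm]
  have h3 : X.dv (fun i => ∑ a, X.E i a • (ψᵀ * X.nabf a ψ + ψᵀ * (X.c a * X.dir ψ))) =
      X.dv (fun i => ∑ j, X.Gi i j • (ψᵀ * X.nab j ψ)) +
        X.dv (fun i => ∑ a, X.E i a • (ψᵀ * (X.c a * X.dir ψ))) := by
    simp only [smul_add, Finset.sum_add_distrib, h1, dv, dM_add]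
    abel
  rw [h3, dv_nab, sa', h2]
  abel

end Spin

/-! ### smooth functions -/

variable {n : ℕ}

/-- The algebra of smooth functions. -/
def Sm (n : ℕ) : Subalgebra ℝ (E n → ℝ) where
  carrier := {f | ContDiff ℝ ∞ f}
  mul_mem' {f h} (hf : ContDiff ℝ ∞ f) (hh : ContDiff ℝ ∞ h) := hf.mul hh
  add_mem' {f h} (hf : ContDiff ℝ ∞ f) (hh : ContDiff ℝ ∞ h) := hf.add hh
  algebraMap_mem' r := show ContDiff ℝ ∞ fun _ : E n => r from contDiff_const

theorem Sm.smooth (f : Sm n) : ContDiff ℝ ∞ f.1 := f.2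

/-- evaluation at a point -/
def evA (x : E n) : Sm n →ₐ[ℝ] ℝ := (Pi.evalAlgHom ℝ (fun _ : E n => ℝ) x).comp (Sm n).val


theorem contDiff_evA (f : Sm n) : ContDiff ℝ ∞ fun x => evA x f := f.2

/-- partial derivatives as derivations -/
def pdD (i : Fin n) : Derivation ℝ (Sm n) (Sm n) :=
  Derivation.mk'
    { toFun := fun f => ⟨pderiv i f.1, contDiff_pd f.2 i⟩
      map_add' := fun f h => Subtype.ext <| funext fun x =>
        pd_add (smooth_diff f.2 x) (smooth_diff h.2 x) i
      map_smul' := fun r f => Subtype.ext <| funext fun x => pd_const_mul r f.1 i x }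
    fun f h => Subtype.ext <| funext fun x => by
      have := pd_mul (smooth_diff f.2 x) (smooth_diff h.2 x) i
      change pderiv i (fun y => f.1 y * h.1 y) x = f.1 x * pderiv i h.1 x + h.1 x * pderiv i f.1 x
      rw [this]; ring

theorem evA_pdD (x : E n) (i : Fin n) (f : Sm n) :
    evA x (pdD i f) = pderiv i (fun y => evA y f) x := rfl

/-- a matrix field with smooth entries as a matrix over `Sm n` -/
def mkM {l m : Type*} (M : E n → Matrix l m ℝ) (h : ∀ i j, ContDiff ℝ ∞ fun x => M x i j) :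
    Matrix l m (Sm n) := fun i j => ⟨fun x => M x i j, h i j⟩

theorem matrix_ext {l m : Type*} {M N : Matrix l m (Sm n)}
    (h : ∀ x, M.map (evA x) = N.map (evA x)) : M = N := by
  ext i j x
  exact congrFun (congrFun (h x) i) j

variable {g : MetricField n} {ι : Type} [Fintype ι] [DecidableEq ι]

/-- The spin geometry of `g` over the smooth functions. -/
def smSpin (hg : IsRiemannianOn g Set.univ) {c : Fin n → Matrix ι ι ℝ} (hc : IsCliff c) :
    Spin (pdD (n := n)) ι where
  G := mkM g (contDiff_g hg)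
  Gi := mkM (inverseField g) (contDiff_inv hg)
  E := mkM (fun x => frame (g x)) (contDiff_frame (contDiff_g hg) (riem_posDef hg))
  comm i j f := Subtype.ext <| funext fun x =>
    pd_comm ((Sm.smooth f).contDiffAt.of_le (WithTop.coe_le_coe.2 (le_top : (2 : ℕ∞) ≤ ⊤))) i j
  symm := by
    ext i j x
    exact riem_symm hg x j i
  inv := matrix_ext fun x => by
    rw [Matrix.map_mul, Matrix.map_one _ (map_zero _) (map_one _)]
    exact Matrix.nonsing_inv_mul (g x) (det_pos hg x).ne'.isUnit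
  orth := matrix_ext fun x => by
    rw [Matrix.map_mul, Matrix.map_mul, Matrix.map_one _ (map_zero _) (map_one _)]
    exact frame_orth (riem_posDef hg x)
  c a := (c a).map (algebraMap ℝ (Sm n))
  cliff := hc.map _
  const i a := by
    ext k l x
    simp

section values

variable (hg : IsRiemannianOn g Set.univ) {c : Fin n → Matrix ι ι ℝ} (hc : IsCliff c) (x : E n)

theorem ev_G (i j : Fin n) : evA x ((smSpin hg hc).G i j) = g x i j := rfl

theorem ev_Gi (i j : Fin n) : evA x ((smSpin hg hc).Gi i j) = inverseField g x i j := rfl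

theorem ev_E (i a : Fin n) : evA x ((smSpin hg hc).E i a) = frame (g x) i a := rfl

theorem ev_c (a : Fin n) (k l : ι) : evA x ((smSpin hg hc).c a k l) = c a k l := rfl

theorem ev_Γ (i k j : Fin n) : evA x ((smSpin hg hc).Γ i k j) = christoffel g x k i j := by
  simp only [Geo.Γ, map_smul, map_sum, map_mul, map_add, map_sub, evA_pdD, ev_G, ev_Gi,
    smul_eq_mul, christoffel]

theorem ev_scal : evA x (smSpin hg hc).scal = scalarCurv g x := by
  have h : ∀ i j, evA x (pdD j (∑ k, (smSpin hg hc).Γ k k i)) =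
      pderiv j (fun y => ∑ k, christoffel g y k k i) x := fun i j => by
    rw [evA_pdD]
    simp only [map_sum, ev_Γ]
  simp only [Geo.scal, Geo.ric, map_sum (evA x), map_mul, map_add, map_sub, h]
  simp only [evA_pdD, ev_Γ, ev_Gi, scalarCurv, ricci]

theorem ev_dv (W : Fin n → Matrix Unit Unit (Sm n)) :
    divE (fun y i => volDensity g y * evA y (W i () ())) x =
      volDensity g x * evA x ((smSpin hg hc).dv W () ()) := by
  simp only [divE, Spin.dv, Matrix.sum_apply, Matrix.add_apply, Matrix.smul_apply, dM_apply,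
    smul_eq_mul, map_sum, map_add, map_mul, evA_pdD, ev_Γ, Finset.mul_sum]
  refine Finset.sum_congr rfl fun i _ => ?_
  rw [pd_mul (smooth_diff (contDiff_volDensity hg) x) (smooth_diff (contDiff_evA _) x)]
  have h : pderiv i (volDensity g) x = volDensity g x * ∑ k, christoffel g x k k i :=
    Crest.Agent.R247.Bo84.pderiv_sqrt_det hg (Set.mem_univ x) i
  rw [h]
  ring

end values

end Crest.Agent.N346.Sp
end
end

-- ▼ part N346/Sp/Exist
section

/-!
# Row 346, spinor layer (helper85): existence of the spin data (`ExistStmt`).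
-/

set_option autoImplicit false
open Matrix Filter
open scoped ContDiff InnerProductSpace Topology
open Crest.GeometryTopology.CoordMetric
open Crest.MathPhysics.ExteriorData
open Crest.Agent.N346.Bs

noncomputable section

namespace Crest.Agent.N346.Sp

variable {n : ℕ} {g : MetricField n} {ι : Type} [Fintype ι] [DecidableEq ι]

local notation "𝕊" => EuclideanSpace ℝ ι

/-- a matrix as an operator -/
def op (M : Matrix ι ι ℝ) : 𝕊 →L[ℝ] 𝕊 := Matrix.toEuclideanCLM (𝕜 := ℝ) M

theorem op_apply (M : Matrix ι ι ℝ) (u : 𝕊) (k : ι) : op M u k = ∑ l, M k l * u l := rfl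

theorem op_mul (M N : Matrix ι ι ℝ) (u : 𝕊) : op (M * N) u = op M (op N u) := by
  simp [op]

theorem op_add (M N : Matrix ι ι ℝ) : op (M + N) = op M + op N := by simp [op]

theorem op_sub (M N : Matrix ι ι ℝ) : op (M - N) = op M - op N := by simp [op]

theorem op_smul (r : ℝ) (M : Matrix ι ι ℝ) : op (r • M) = r • op M := by simp [op]

theorem op_sum {α : Type*} (s : Finset α) (M : α → Matrix ι ι ℝ) :
    op (∑ a ∈ s, M a) = ∑ a ∈ s, op (M a) := by simp [op]

theorem op_one : op (1 : Matrix ι ι ℝ) = 1 := by simp [op]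

theorem op_zero : op (0 : Matrix ι ι ℝ) = 0 := by simp [op]

theorem op_skew {M : Matrix ι ι ℝ} (h : Mᵀ = -M) (u v : 𝕊) : ⟪op M u, v⟫_ℝ = -⟪u, op M v⟫_ℝ := by
  have h' : ∀ k l, M k l = -M l k := fun k l => congrFun (congrFun h l) k
  simp only [PiLp.inner_apply, op_apply, RCLike.inner_apply, conj_trivial, Finset.mul_sum,
    Finset.sum_mul, ← Finset.sum_neg_distrib]
  rw [Finset.sum_comm]
  exact Finset.sum_congr rfl fun k _ => Finset.sum_congr rfl fun l _ => by rw [h' l k]; ring

theorem cl_op {c : Fin n → Matrix ι ι ℝ} (hc : IsCliff c) : Cl fun a => op (c a) := by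
  refine ⟨fun a => op_skew (hc.skew a), fun a b u => ?_⟩
  rw [← op_mul, ← op_mul, ← _root_.add_apply, ← op_add, hc.anti]
  split_ifs
  · rw [op_smul, op_one]; rfl
  · simp [op_zero]

theorem contDiff_op (M : Matrix ι ι (Sm n)) : ContDiff ℝ ∞ fun x => op (M.map (evA x)) := by
  rw [contDiff_clm_apply_iff]
  intro u
  rw [contDiff_euclidean]
  intro k
  simp only [op_apply]
  exact ContDiff.sum fun l _ => (contDiff_evA _).mul contDiff_const

/-- a column of smooth functions as a spinor field -/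
def vec (Ψ : Matrix ι Unit (Sm n)) (x : E n) : 𝕊 := WithLp.toLp 2 fun k => evA x (Ψ k ())

/-- a smooth spinor field as a column of smooth functions -/
def col (ψ : E n → 𝕊) (h : ContDiff ℝ ∞ ψ) : Matrix ι Unit (Sm n) :=
  fun k _ => ⟨fun x => ψ x k, contDiff_euclidean.1 h k⟩

omit [DecidableEq ι] in
theorem vec_col (ψ : E n → 𝕊) (h : ContDiff ℝ ∞ ψ) : vec (col ψ h) = ψ := rfl

omit [DecidableEq ι] in
theorem contDiff_vec (Ψ : Matrix ι Unit (Sm n)) : ContDiff ℝ ∞ (vec Ψ) :=
  contDiff_euclidean.2 fun _ => contDiff_evA _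

theorem vec_mul (M : Matrix ι ι (Sm n)) (Ψ : Matrix ι Unit (Sm n)) (x : E n) :
    vec (M * Ψ) x = op (M.map (evA x)) (vec Ψ x) := by
  ext k
  simp [vec, op_apply, mul_apply]

omit [DecidableEq ι] [Fintype ι] in
theorem vec_add (Φ Ψ : Matrix ι Unit (Sm n)) (x : E n) : vec (Φ + Ψ) x = vec Φ x + vec Ψ x := by
  ext k
  simp [vec]

omit [DecidableEq ι] [Fintype ι] in
theorem vec_sum_smul (r : Fin n → Sm n) (Ψ : Fin n → Matrix ι Unit (Sm n)) (x : E n) :
    vec (∑ i, r i • Ψ i) x = ∑ i, evA x (r i) • vec (Ψ i) x := by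
  ext k
  simp [vec, Matrix.sum_apply]

omit [DecidableEq ι] [Fintype ι] in
theorem vec_sum (Ψ : Fin n → Matrix ι Unit (Sm n)) (x : E n) :
    vec (∑ i, Ψ i) x = ∑ i, vec (Ψ i) x := by
  ext k
  simp [vec, Matrix.sum_apply]

omit [DecidableEq ι] in
theorem vec_dM (i : Fin n) (Ψ : Matrix ι Unit (Sm n)) (x : E n) :
    vec (dM (pdD i) Ψ) x = fderiv ℝ (vec Ψ) x (EuclideanSpace.single i 1) := by
  ext k
  have h := ((EuclideanSpace.proj k : 𝕊 →L[ℝ] ℝ).hasFDerivAt.comp x
    (((contDiff_vec Ψ).differentiable (by simp)) x).hasFDerivAt).fderiv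
  change pderiv i ((EuclideanSpace.proj k : 𝕊 →L[ℝ] ℝ) ∘ vec Ψ) x = _
  rw [pderiv, h]
  rfl

omit [DecidableEq ι] in
theorem ev_pair (Φ Ψ : Matrix ι Unit (Sm n)) (x : E n) :
    evA x ((Φᵀ * Ψ) () ()) = ⟪vec Φ x, vec Ψ x⟫_ℝ := by
  simp [vec, mul_apply, PiLp.inner_apply, mul_comm]

theorem ev_eq_sum (g : MetricField n) (x : E n) (a : Fin n) :
    ev g x a = ∑ i, frame (g x) i a • EuclideanSpace.single i (1 : ℝ) := by
  ext j
  simp [ev, Pi.single_apply]

section
variable (hg : IsRiemannianOn g Set.univ) {c : Fin n → Matrix ι ι ℝ} (hc : IsCliff c)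

/-- the connection operators in the frame -/
def conn (a : Fin n) (x : E n) : 𝕊 →L[ℝ] 𝕊 :=
  ∑ i, frame (g x) i a • op (((smSpin hg hc).A i).map (evA x))

theorem map_c (a : Fin n) (x : E n) : ((smSpin hg hc).c a).map (evA x) = c a := rfl

theorem vec_nabf (a : Fin n) (Ψ : Matrix ι Unit (Sm n)) (x : E n) :
    vec ((smSpin hg hc).nabf a Ψ) x = nab g (conn hg hc) a (vec Ψ) x := by
  simp only [Spin.nabf, vec_sum_smul, Spin.nab, vec_add, vec_mul, vec_dM, ev_E, nab, conn,
    ev_eq_sum, map_sum, map_smul, _root_.sum_apply, _root_.smul_apply,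
    smul_add, Finset.sum_add_distrib]

theorem vec_dir (Ψ : Matrix ι Unit (Sm n)) (x : E n) :
    vec ((smSpin hg hc).dir Ψ) x = dir g (fun a => op (c a)) (conn hg hc) (vec Ψ) x := by
  simp only [Spin.dir_eq, vec_sum, vec_mul, vec_nabf, map_c, dir]

theorem dvf_eq (V : Fin n → Matrix Unit Unit (Sm n)) (x : E n) :
    dvf g (fun y a => evA y (V a () ())) x =
      volDensity g x * evA x ((smSpin hg hc).dv (fun i => ∑ a, (smSpin hg hc).E i a • V a) () ()) := by
  rw [← ev_dv]
  simp only [dvf, Matrix.sum_apply, Matrix.smul_apply, smul_eq_mul, map_sum, map_mul, ev_E]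

theorem conn_flat (w : E n → ℝ) (x : E n) (hw : ContDiffAt ℝ ∞ w x)
    (h : ∀ᶠ y in 𝓝 x, g y = Real.exp (2 * w y) • (1 : Matrix (Fin n) (Fin n) ℝ)) (a : Fin n)
    (u : 𝕊) : conn hg hc a x u = (-(Real.exp (-w x)) / 4) •
      (op (c a) (cv (fun a => op (c a)) (euclidGrad w x) u) -
        cv (fun a => op (c a)) (euclidGrad w x) (op (c a) u)) := by
  have hd : DifferentiableAt ℝ w x := hw.differentiableAt (by simp)
  have hs : ∀ t : ℝ, (√(Real.exp (2 * t)))⁻¹ = Real.exp (-t) := fun t => by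
    rw [Real.exp_neg, two_mul, Real.exp_add, Real.sqrt_mul_self (Real.exp_pos _).le]
  have hF : ∀ᶠ y in 𝓝 x, frame (g y) = Real.exp (-w y) • (1 : Matrix (Fin n) (Fin n) ℝ) := by
    filter_upwards [h] with y hy
    rw [hy, frame_scalar, hs]
  have hx := h.self_of_nhds
  have hFx := hF.self_of_nhds
  have hdg : ∀ i j k, pderiv i (fun y => g y j k) x =
      2 * Real.exp (2 * w x) * pderiv i w x * (if j = k then 1 else 0) := fun i j k => by
    rw [pd_congr (v := fun y => Real.exp (2 * w y) * (if j = k then 1 else 0))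
      (h.mono fun y hy => by simp [hy, one_apply]), pd_mul_const,
      pd_comp (θ := fun t => Real.exp (2 * t)) (θ' := Real.exp (2 * w x) * 2)
        (by simpa using ((hasDerivAt_id (w x)).const_mul 2).exp) hd]
    ring
  have hdF : ∀ i j k, pderiv i (fun y => frame (g y) j k) x =
      -Real.exp (-w x) * pderiv i w x * (if j = k then 1 else 0) := fun i j k => by
    rw [pd_congr (v := fun y => Real.exp (-w y) * (if j = k then 1 else 0))
      (hF.mono fun y hy => by simp [hy, one_apply]), pd_mul_const,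
      pd_comp (θ := fun t => Real.exp (-t)) (θ' := -Real.exp (-w x))
        (by simpa using (hasDerivAt_neg (w x)).exp) hd]
  have hinv : inverseField g x = (Real.exp (2 * w x))⁻¹ • (1 : Matrix (Fin n) (Fin n) ℝ) := by
    rw [inverseField, hx, inv_smul_one (Real.exp_pos _).ne']
  have hΓ : ∀ i k j, christoffel g x k i j = (if j = k then pderiv i w x else 0) +
      (if i = k then pderiv j w x else 0) - (if i = j then pderiv k w x else 0) := fun i k j => by
    have := (Real.exp_pos (2 * w x)).ne'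
    simp only [christoffel, hinv, hdg, Matrix.smul_apply, one_apply, smul_eq_mul, mul_ite,
      ite_mul, mul_one, mul_zero, zero_mul, Finset.sum_ite_eq, Finset.mem_univ, if_true]
    split_ifs <;> field_simp <;> ring
  have he : Real.exp (-w x) * Real.exp (2 * w x) * Real.exp (-w x) = 1 := by
    rw [← Real.exp_add, ← Real.exp_add, ← Real.exp_zero]; congr 1; ring
  have hω : ∀ i p q, evA x ((smSpin hg hc).ω i p q) =
      (if i = p then pderiv q w x else 0) - (if i = q then pderiv p w x else 0) := fun i p q => by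
    simp only [Geo.ω, Geo.θ, mul_apply, Matrix.add_apply, transpose_apply, dM_apply, map_sum,
      map_mul, map_add, evA_pdD, ev_E, ev_G, ev_Γ, hdF, hΓ, hFx]
    simp only [hx, Matrix.smul_apply, one_apply, smul_eq_mul, mul_ite, ite_mul, mul_one,
      mul_zero, zero_mul, Finset.sum_ite_eq', Finset.mem_univ, if_true]
    by_cases hpq : p = q
    · subst hpq
      split_ifs <;> ring
    · simp only [hpq, Ne.symm hpq, if_false]
      split_ifs
      · linear_combination (pderiv q w x - pderiv p w x) * he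
      · linear_combination pderiv q w x * he
      · linear_combination (-pderiv p w x) * he
      · ring
  have hA : ∀ i, ((smSpin hg hc).A i).map (evA x) = (-1 / 4 : ℝ) •
      (c i * (∑ q, pderiv q w x • c q) - (∑ p, pderiv p w x • c p) * c i) := fun i => by
    have e1 : ((smSpin hg hc).A i).map (evA x) = (-1 / 4 : ℝ) •
        ∑ p, ∑ q, evA x ((smSpin hg hc).ω i p q) • (c p * c q) := by
      ext k l
      simp only [Spin.A, quad, map_apply, Matrix.smul_apply, Matrix.sum_apply, map_smul, map_sum,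
        smul_eq_mul, map_mul, mul_apply, ev_c]
    rw [e1]
    congr 1
    simp only [hω, sub_smul, ite_smul, zero_smul, Finset.sum_sub_distrib, Finset.sum_ite_eq,
      Finset.mem_univ, if_true, Matrix.mul_sum, Matrix.sum_mul, Matrix.mul_smul, Matrix.smul_mul]
    congr 1
    rw [Finset.sum_comm]
    simp only [Finset.sum_ite_eq, Finset.mem_univ, if_true]
  rw [conn, _root_.sum_apply, Finset.sum_eq_single a
    (fun i _ hi => by rw [_root_.smul_apply, hFx]; simp [hi]) (by simp), hFx, Matrix.smul_apply,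
    one_apply_eq, smul_eq_mul, mul_one]
  simp only [hA, op_smul, op_sub, _root_.smul_apply, _root_.sub_apply, op_mul, op_sum,
    _root_.sum_apply, smul_smul, cv, euclidGrad]
  congr 1
  ring

theorem spinData : SpinData g (fun a => op (c a)) (conn hg hc) where
  cl := cl_op hc
  A_smooth a := ContDiff.sum fun i _ =>
    (contDiff_frame (contDiff_g hg) (riem_posDef hg) i a).smul (contDiff_op _)
  A_skew a x u v := by
    have h : ∀ i, (((smSpin hg hc).A i).map (evA x))ᵀ = -((smSpin hg hc).A i).map (evA x) :=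
      fun i => by
        rw [← Matrix.transpose_map, Spin.A_skew]
        ext k l
        simp
    simp only [conn, _root_.sum_apply, _root_.smul_apply, sum_inner,
      inner_sum, real_inner_smul_left, real_inner_smul_right, op_skew (h _), mul_neg,
      Finset.sum_neg_distrib]
  sa φ ψ hφ hψ x := by
    have h := dvf_eq hg hc (fun a => (col φ hφ)ᵀ * ((smSpin hg hc).c a * col ψ hψ)) x
    rw [Spin.sa'] at h
    simpa only [Matrix.sub_apply, map_sub, ev_pair, vec_mul, vec_dir, vec_col, map_c] using h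
  wit ψ hψ x := by
    have h := dvf_eq hg hc (fun a => (col ψ hψ)ᵀ * (smSpin hg hc).nabf a (col ψ hψ) +
      (col ψ hψ)ᵀ * ((smSpin hg hc).c a * (smSpin hg hc).dir (col ψ hψ))) x
    rw [Spin.wit'] at h
    simp only [Matrix.sub_apply, Matrix.add_apply, Matrix.sum_apply, Matrix.smul_apply, map_sub,
      map_add, map_sum, smul_eq_mul, map_mul, map_smul, ev_scal, ev_pair, vec_mul, vec_dir,
      vec_nabf, vec_col, map_c, real_inner_self_eq_norm_sq] at h
    rw [h]
    ring
  flat := conn_flat hg hc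

end

/-- **L1.** -/
theorem exist : ExistStmt := fun n g hg => by
  obtain ⟨c, hc⟩ := exists_cliff n
  exact ⟨EuclideanSpace ℝ (Idx n), inferInstance, inferInstance, inferInstance, inferInstance,
    _, _, spinData hg hc⟩

end Crest.Agent.N346.Sp
end
end

-- ▼ part N346/Sp/Cont

/-!
# Row 346, spinor layer: method of continuity for dense range.
-/

set_option autoImplicit false
open scoped InnerProductSpace

noncomputable section

namespace Crest.Agent.N346.Sp

theorem dense_of_orth {T H : Type} [AddCommGroup T] [Module ℝ T] [NormedAddCommGroup H]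
    [InnerProductSpace ℝ H] [CompleteSpace H] (L : T →ₗ[ℝ] H)
    (h : ∀ Θ : H, (∀ ξ, ⟪Θ, L ξ⟫_ℝ = 0) → Θ = 0) : Dense (Set.range L) := by
  have : (LinearMap.range L).topologicalClosure = ⊤ := by
    rw [Submodule.topologicalClosure_eq_top_iff, Submodule.eq_bot_iff]
    intro Θ hΘ
    refine h Θ fun ξ => ?_
    rw [real_inner_comm]
    exact (Submodule.mem_orthogonal _ _).1 hΘ _ ⟨ξ, rfl⟩
  have h2 := Submodule.dense_iff_topologicalClosure_eq_top.2 this
  rwa [LinearMap.coe_range] at h2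

theorem cont : ContStmt := by
  intro T H _ _ _ _ _ L B C hC h0 y δ hδ
  obtain ⟨N, hN⟩ := exists_nat_gt (max C 0)
  have hN0 : (0 : ℝ) < N := lt_of_le_of_lt (le_max_right _ _) hN
  have hCN : max C 0 / N < 1 := (div_lt_one hN0).2 hN
  have key : ∀ k : ℕ, k ≤ N → ∀ Θ : H,
      (∀ ξ, ⟪Θ, (L + ((k : ℝ) / N) • B) ξ⟫_ℝ = 0) → Θ = 0 := by
    intro k
    induction k with
    | zero => intro _ Θ hΘ; exact h0 Θ fun ξ => by simpa using hΘ ξ
    | succ k ih =>
      intro hk Θ hΘ
      have hk' : (k : ℝ) + 1 ≤ N := by exact_mod_cast hk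
      have hd := dense_of_orth (L + ((k : ℝ) / N) • B) (ih (by omega))
      set τ : ℝ := (k : ℝ) / N with hτ
      have hτ0 : 0 ≤ τ := by positivity
      have hτ1 : 1 / (N : ℝ) ≤ 1 - τ := by
        rw [hτ, le_sub_iff_add_le, ← add_div, div_le_one hN0]; linarith
      have hh : 0 < 1 / (N : ℝ) := by positivity
      have hcl : IsClosed {y : H | ⟪Θ, y⟫_ℝ ^ 2 ≤ max C 0 / N * (‖Θ‖ ^ 2 * ‖y‖ ^ 2)} :=
        isClosed_le (by fun_prop) (by fun_prop)
      have hsub : Set.range (L + τ • B) ⊆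
          {y : H | ⟪Θ, y⟫_ℝ ^ 2 ≤ max C 0 / N * (‖Θ‖ ^ 2 * ‖y‖ ^ 2)} := by
        rintro _ ⟨ξ, rfl⟩
        have h1 := hΘ ξ
        have h2 : (L + (((k + 1 : ℕ) : ℝ) / N) • B) ξ = (L + τ • B) ξ + (1 / (N : ℝ)) • B ξ := by
          simp only [LinearMap.add_apply, LinearMap.smul_apply, hτ, add_assoc, ← add_smul]
          congr 2
          push_cast; ring
        rw [h2, inner_add_right, inner_smul_right] at h1
        have h3 := hC τ ⟨hτ0, by linarith⟩ ξ
        have h4 : (L + τ • B) ξ = L ξ + τ • B ξ := by simp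
        rw [← h4] at h3
        have h5 : 1 / (N : ℝ) * ‖B ξ‖ ^ 2 ≤ max C 0 * ‖(L + τ • B) ξ‖ ^ 2 := by
          calc _ ≤ (1 - τ) * ‖B ξ‖ ^ 2 := by gcongr
            _ ≤ C * ‖(L + τ • B) ξ‖ ^ 2 := h3
            _ ≤ _ := by gcongr; exact le_max_left _ _
        have h6 : ⟪Θ, B ξ⟫_ℝ ^ 2 ≤ ‖Θ‖ ^ 2 * ‖B ξ‖ ^ 2 := by
          rw [← mul_pow]
          exact sq_le_sq' (by linarith [neg_abs_le ⟪Θ, B ξ⟫_ℝ, abs_real_inner_le_norm Θ (B ξ)])
            (real_inner_le_norm _ _)
        have h7 : ⟪Θ, (L + τ • B) ξ⟫_ℝ = -(1 / (N : ℝ) * ⟪Θ, B ξ⟫_ℝ) := by linarith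
        show ⟪Θ, (L + τ • B) ξ⟫_ℝ ^ 2 ≤ _
        rw [h7, neg_sq, mul_pow]
        calc (1 / (N : ℝ)) ^ 2 * ⟪Θ, B ξ⟫_ℝ ^ 2
            ≤ (1 / (N : ℝ)) ^ 2 * (‖Θ‖ ^ 2 * ‖B ξ‖ ^ 2) := by gcongr
          _ = (1 / (N : ℝ)) * ‖Θ‖ ^ 2 * (1 / (N : ℝ) * ‖B ξ‖ ^ 2) := by ring
          _ ≤ (1 / (N : ℝ)) * ‖Θ‖ ^ 2 * (max C 0 * ‖(L + τ • B) ξ‖ ^ 2) := by gcongr
          _ = _ := by ring
      have hΘΘ : Θ ∈ {y : H | ⟪Θ, y⟫_ℝ ^ 2 ≤ max C 0 / N * (‖Θ‖ ^ 2 * ‖y‖ ^ 2)} :=
        hcl.closure_subset_iff.2 hsub (hd Θ)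
      simp only [Set.mem_ofPred_eq, real_inner_self_eq_norm_sq] at hΘΘ
      by_contra hne
      have hp : 0 < ‖Θ‖ ^ 2 * ‖Θ‖ ^ 2 := by have := norm_pos_iff.2 hne; positivity
      nlinarith
  have hd := dense_of_orth (L + ((N : ℝ) / N) • B) (key N le_rfl)
  obtain ⟨_, hz, ξ, rfl⟩ := hd.exists_dist_lt (-y) hδ |>.imp fun z hz => And.intro hz.2 hz.1
  refine ⟨ξ, ?_⟩
  rw [div_self hN0.ne', one_smul, dist_comm, dist_eq_norm, sub_neg_eq_add, add_comm] at hz
  simpa using hz.le

end Crest.Agent.N346.Sp
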