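import Mathlib
import Crest.Agent.R230.BM
import Crest.Agent.N346.P2.Conc
import Crest.Agent.N346.Basic2
import Crest.Agent.N346.P2.ConcB
import Crest.Agent.N346.P2.ConcL
import Crest.Agent.N346.Sp.Defs
import Crest.Agent.N346.Sp.Kato

-- ▼ part N346/P2/IsoRaw
section

/-!
Row 346, P2: the sharp Euclidean isocapacitary inequality for `C¹` functions with compact support,
directly from the Brunn–Minkowski inequality.
-/

set_option autoImplicit false
set_option linter.unusedSectionVars false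
set_option linter.deprecated false
open MeasureTheory Set Filter Topology Metric Module
open scoped ENNReal Pointwise
open Crest.Agent.R230

noncomputable section
namespace Crest.Agent.N346.Iso

variable {E : Type*} [NormedAddCommGroup E] [InnerProductSpace ℝ E] [FiniteDimensional ℝ E]
  [MeasurableSpace E] [BorelSpace E]

/-- Growth of `ε`-neighbourhoods (Brunn–Minkowski). -/
lemma bm_grow {n : ℕ} (hn : finrank ℝ E = n + 1) {A : Set E} (hA : IsCompact A) (hA0 : A.Nonempty)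
    {ε : ℝ} (hε : 0 ≤ ε) :
    ENNReal.ofReal (((n : ℝ) + 1) * rt (closedBall (0 : E) 1) * ε) *
      volume A ^ ((n : ℝ) / (n + 1)) ≤ volume ((A + ε • closedBall (0 : E) 1) \ A) := by
  have hpos : 0 < finrank ℝ E := by omega
  have hB : IsCompact (closedBall (0 : E) 1) := isCompact_closedBall _ _
  have hB0 : (ε • closedBall (0 : E) 1).Nonempty :=
    ⟨ε • (0 : E), smul_mem_smul_set (mem_closedBall_self zero_le_one)⟩
  have hS : IsCompact (A + ε • closedBall (0 : E) 1) := hA.add (hB.smul ε)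
  have h1 := BM_add hpos hA (hB.smul ε) hA0 hB0
  rw [rt_smul hpos _ hε] at h1
  have ha := rt_nonneg A
  have hb : 0 ≤ ε * rt (closedBall (0 : E) 1) := mul_nonneg hε (rt_nonneg _)
  have h2 : (rt A + ε * rt (closedBall (0 : E) 1)) ^ (n + 1)
      ≤ volume.real (A + ε • closedBall (0 : E) 1) := by
    rw [← rt_pow hpos, hn]
    exact pow_le_pow_left₀ (add_nonneg ha hb) h1 _
  have h3 := pow_add_mul_le_add_pow ha (by positivity :
    0 ≤ 2 * rt A + ε * rt (closedBall (0 : E) 1)) (n + 1)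
  have h4 : rt A ^ (n + 1) = volume.real A := by rw [← rt_pow hpos, hn]
  have hsub : A ⊆ A + ε • closedBall (0 : E) 1 := fun x hx =>
    ⟨x, hx, ε • (0 : E), smul_mem_smul_set (mem_closedBall_self zero_le_one), by simp⟩
  have h5 : volume.real ((A + ε • closedBall (0 : E) 1) \ A)
      = volume.real (A + ε • closedBall (0 : E) 1) - volume.real A :=
    measureReal_diff hsub hA.measurableSet hS.measure_lt_top.ne
  have h6 : volume A ^ ((n : ℝ) / (n + 1)) = ENNReal.ofReal (rt A ^ n) := by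
    rw [← ofReal_measureReal hA.measure_lt_top.ne, ← h4,
      ENNReal.ofReal_rpow_of_nonneg (by positivity) (by positivity), ← Real.rpow_natCast,
      ← Real.rpow_mul ha, ← Real.rpow_natCast]
    congr 2
    push_cast
    field_simp
  have hfin : volume ((A + ε • closedBall (0 : E) 1) \ A) ≠ ∞ :=
    ((measure_mono diff_subset).trans_lt hS.measure_lt_top).ne
  rw [h6, ← ENNReal.ofReal_mul (by have := rt_nonneg (closedBall (0 : E) 1); positivity),
    ← ofReal_measureReal hfin, h5]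
  apply ENNReal.ofReal_le_ofReal
  simp only [Nat.add_sub_cancel] at h3
  push_cast at h3
  nlinarith

omit [MeasurableSpace E] [BorelSpace E] in
/-- Uniform differentiability. -/
lemma unif_diff {v : E → ℝ} (hv : ContDiff ℝ 1 v) (hc : HasCompactSupport v) {δ : ℝ}
    (hδ : 0 < δ) : ∃ ε₀ : ℝ, 0 < ε₀ ∧ ∀ x y, ‖y - x‖ ≤ ε₀ →
      |v y - v x| ≤ (‖fderiv ℝ v x‖ + δ) * ‖y - x‖ := by
  have hu : UniformContinuous (fderiv ℝ v) :=
    (hc.fderiv ℝ).uniformContinuous_of_continuous (hv.continuous_fderiv one_ne_zero)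
  obtain ⟨ε₀, hε₀, h⟩ := Metric.uniformContinuous_iff.1 hu δ hδ
  refine ⟨ε₀ / 2, by positivity, fun x y hy => ?_⟩
  have := (convex_closedBall x (ε₀ / 2)).norm_image_sub_le_of_norm_fderiv_le (𝕜 := ℝ) (f := v)
    (C := ‖fderiv ℝ v x‖ + δ) (x := x) (y := y)
    (fun z _ => hv.differentiable one_ne_zero z) (fun z hz => ?_)
    (mem_closedBall_self (by positivity)) (by rwa [mem_closedBall, dist_eq_norm])
  · simpa using this
  · have h1 : dist (fderiv ℝ v z) (fderiv ℝ v x) < δ :=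
      h (lt_of_le_of_lt (mem_closedBall.1 hz) (by linarith))
    rw [dist_eq_norm] at h1
    have := norm_le_norm_add_norm_sub' (fderiv ℝ v z) (fderiv ℝ v x)
    linarith

/-- The distribution function. -/
def mu (v : E → ℝ) (s : ℝ) : ℝ≥0∞ := volume {x | s ≤ v x}

lemma mu_anti (v : E → ℝ) : Antitone (mu v) := fun _ _ h =>
  measure_mono fun _ hx => le_trans h hx

lemma isCompact_lev {v : E → ℝ} (hv : Continuous v) (hc : HasCompactSupport v) {s : ℝ}
    (hs : 0 < s) : IsCompact {x | s ≤ v x} :=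
  hc.isCompact.of_isClosed_subset (isClosed_le continuous_const hv) fun x hx =>
    subset_tsupport _ (by
      have : s ≤ v x := hx
      simp only [Function.mem_support]; linarith)

lemma mu_ne_top {v : E → ℝ} (hv : Continuous v) (hc : HasCompactSupport v) {s : ℝ}
    (hs : 0 < s) : mu v s ≠ ∞ := (isCompact_lev hv hc hs).measure_lt_top.ne

lemma w_mono (v : E → ℝ) {p : ℝ} (hp : 0 ≤ p) : Monotone fun s => mu v s ^ (-p) := by
  intro a b h
  simp only [ENNReal.rpow_neg]
  exact ENNReal.inv_le_inv.2 (ENNReal.rpow_le_rpow (mu_anti v h) hp)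

lemma tendsto_mu {v : E → ℝ} (hv : Continuous v) (hc : HasCompactSupport v) {s : ℝ}
    (hs : 0 < s) {h : ℕ → ℝ} (hanti : Antitone h) (hlim : Tendsto h atTop (𝓝 0)) :
    Tendsto (fun k => mu v (s - h k)) atTop (𝓝 (mu v s)) := by
  have h0 : ∀ k, 0 ≤ h k := fun k => hanti.le_of_tendsto hlim k
  have hI : (⋂ k, {x | s - h k ≤ v x}) = {x | s ≤ v x} := by
    ext x
    simp only [mem_iInter, mem_setOf_eq]
    constructor
    · intro hx
      have : Tendsto (fun k => s - h k) atTop (𝓝 (s - 0)) := tendsto_const_nhds.sub hlim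
      rw [sub_zero] at this
      exact le_of_tendsto' this hx
    · intro hx k; linarith [h0 k]
  have := tendsto_measure_iInter_atTop (μ := (volume : Measure E))
    (s := fun k => {x | s - h k ≤ v x})
    (fun k => (isClosed_le continuous_const hv).measurableSet.nullMeasurableSet)
    (fun a b hab x hx => by
      have h1 : s - h b ≤ v x := hx
      have := hanti hab
      show s - h a ≤ v x
      linarith) ?_
  · rw [hI] at this
    exact this
  · obtain ⟨k, hk⟩ := (hlim.eventually (gt_mem_nhds hs)).exists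
    exact ⟨k, mu_ne_top hv hc (by linarith)⟩

/-- One step of Brunn–Minkowski on all levels, integrated. -/
lemma step {n : ℕ} (hn : finrank ℝ E = n + 1) {v : E → ℝ} (hv : ContDiff ℝ 1 v)
    (hc : HasCompactSupport v) {t : ℝ} (hm : mu v t ≠ 0) {R M δ ε : ℝ}
    (hR : tsupport v ⊆ closedBall 0 R) (hM : ∀ x, ‖fderiv ℝ v x‖ ≤ M) (hε : 0 < ε) (hε1 : ε ≤ 1)
    (hδ : 0 ≤ δ)
    (hu : ∀ x y, ‖y - x‖ ≤ ε → |v y - v x| ≤ (‖fderiv ℝ v x‖ + δ) * ‖y - x‖) :
    ENNReal.ofReal (((n : ℝ) + 1) * rt (closedBall (0 : E) 1)) *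
      ∫⁻ s in Ioc 0 t, mu v (s - ε * (M + δ)) ^ (-((n : ℝ) / (n + 1))) * mu v s ^ ((n : ℝ) / (n + 1))
      ≤ ∫⁻ x in closedBall 0 (R + 1) ∩ {x | v x < t},
        mu v (v x) ^ (-((n : ℝ) / (n + 1))) * ENNReal.ofReal (‖fderiv ℝ v x‖ + δ) := by
  set p : ℝ := (n : ℝ) / (n + 1) with hp
  have hp0 : 0 ≤ p := by positivity
  set c : ℝ := ((n : ℝ) + 1) * rt (closedBall (0 : E) 1) with hcdef
  have hc0 : 0 ≤ c := by have := rt_nonneg (closedBall (0 : E) 1); positivity
  set w : ℝ → ℝ≥0∞ := fun s => mu v s ^ (-p) with hw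
  have hwm : Monotone w := w_mono v hp0
  have hvc := hv.continuous
  have hdc : Continuous fun x => ‖fderiv ℝ v x‖ := (hv.continuous_fderiv one_ne_zero).norm
  set S : Set (ℝ × E) := {q | q.2 ∈ closedBall (0 : E) (R + 1) ∧ v q.2 < q.1 ∧
    q.1 ≤ v q.2 + ε * (‖fderiv ℝ v q.2‖ + δ)} with hS
  have hSm : MeasurableSet S := by
    refine (measurable_snd measurableSet_closedBall).inter (MeasurableSet.inter ?_ ?_)
    · exact measurableSet_lt (hvc.measurable.comp measurable_snd) measurable_fst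
    · exact measurableSet_le measurable_fst (by fun_prop)
  set F : ℝ × E → ℝ≥0∞ := S.indicator fun q => w (v q.2) with hF
  have hFm : Measurable F :=
    (hwm.measurable.comp (hvc.measurable.comp measurable_snd)).indicator hSm
  have h1 : ∀ s ∈ Ioc (0 : ℝ) t, ENNReal.ofReal (c * ε) * (w (s - ε * (M + δ)) * mu v s ^ p)
      ≤ ∫⁻ x, F (s, x) := by
    intro s hs
    have hA := isCompact_lev hvc hc hs.1
    have hA0 : {x | s ≤ v x}.Nonempty := by
      apply nonempty_of_measure_ne_zero (μ := (volume : Measure E))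
      exact fun h => hm (le_antisymm ((mu_anti v hs.2).trans (le_of_eq h)) bot_le)
    have hg := bm_grow hn hA hA0 hε.le
    have hDm : MeasurableSet (({x | s ≤ v x} + ε • closedBall (0 : E) 1) \ {x | s ≤ v x}) :=
      (hA.add ((isCompact_closedBall _ _).smul ε)).measurableSet.diff hA.measurableSet
    calc ENNReal.ofReal (c * ε) * (w (s - ε * (M + δ)) * mu v s ^ p)
        = w (s - ε * (M + δ)) * (ENNReal.ofReal (c * ε) * mu v s ^ p) := by ring
      _ ≤ w (s - ε * (M + δ)) *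
          volume (({x | s ≤ v x} + ε • closedBall (0 : E) 1) \ {x | s ≤ v x}) := by
          gcongr; exact hg
      _ = ∫⁻ x, (({x | s ≤ v x} + ε • closedBall (0 : E) 1) \ {x | s ≤ v x}).indicator
          (fun _ => w (s - ε * (M + δ))) x := (lintegral_indicator_const hDm _).symm
      _ ≤ ∫⁻ x, F (s, x) := by
          refine lintegral_mono fun x => ?_
          by_cases hx : x ∈ ({x | s ≤ v x} + ε • closedBall (0 : E) 1) \ {x | s ≤ v x}
          swap
          · rw [indicator_of_notMem hx]; exact bot_le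
          rw [indicator_of_mem hx]
          obtain ⟨⟨y, hy, _, ⟨u, hu1, rfl⟩, rfl⟩, hx2⟩ := hx
          have hy' : s ≤ v y := hy
          have hx3 : v (y + ε • u) < s := not_le.1 hx2
          have hun : ‖u‖ ≤ 1 := by simpa using hu1
          have hn1 : ‖y - (y + ε • u)‖ ≤ ε := by
            rw [sub_add_cancel_left, norm_neg, norm_smul, Real.norm_of_nonneg hε.le]
            nlinarith
          have h2 := (le_abs_self _).trans (hu (y + ε • u) y hn1)
          have h3 : (‖fderiv ℝ v (y + ε • u)‖ + δ) * ‖y - (y + ε • u)‖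
              ≤ (‖fderiv ℝ v (y + ε • u)‖ + δ) * ε := by gcongr
          have hyR : ‖y‖ ≤ R := by
            have : y ∈ tsupport v := subset_tsupport _ (by
              simp only [Function.mem_support]; linarith [hs.1])
            simpa using hR this
          have hmem : (s, y + ε • u) ∈ S := by
            refine ⟨?_, hx3, by dsimp only; linarith⟩
            simp only [mem_closedBall, dist_zero_right]
            have := norm_add_le y (ε • u)
            rw [norm_smul, Real.norm_of_nonneg hε.le] at this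
            nlinarith
          show _ ≤ S.indicator (fun q => w (v q.2)) (s, y + ε • u)
          rw [indicator_of_mem hmem]
          apply hwm
          have := hM (y + ε • u)
          nlinarith
  have h2 : ∀ x, ∫⁻ s in Ioc 0 t, F (s, x) ≤ (closedBall 0 (R + 1) ∩ {x | v x < t}).indicator
      (fun x => ENNReal.ofReal ε * (w (v x) * ENNReal.ofReal (‖fderiv ℝ v x‖ + δ))) x := by
    intro x
    by_cases hx : x ∈ closedBall 0 (R + 1) ∩ {x | v x < t}
    · rw [indicator_of_mem hx]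
      calc ∫⁻ s in Ioc 0 t, F (s, x) ≤ ∫⁻ s, F (s, x) := setLIntegral_le_lintegral _ _
        _ ≤ ∫⁻ s, (Ioc (v x) (v x + ε * (‖fderiv ℝ v x‖ + δ))).indicator (fun _ => w (v x)) s := by
            refine lintegral_mono fun s => ?_
            by_cases hs : (s, x) ∈ S
            · show S.indicator (fun q => w (v q.2)) (s, x) ≤ _
              rw [indicator_of_mem hs, indicator_of_mem (show s ∈ Ioc _ _ from ⟨hs.2.1, hs.2.2⟩)]
            · show S.indicator (fun q => w (v q.2)) (s, x) ≤ _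
              rw [indicator_of_notMem hs]; exact bot_le
        _ = _ := by
            rw [lintegral_indicator_const measurableSet_Ioc, Real.volume_Ioc, add_sub_cancel_left,
              ENNReal.ofReal_mul hε.le]
            ring
    · rw [indicator_of_notMem hx]
      refine le_of_eq (setLIntegral_eq_zero measurableSet_Ioc fun s hs => ?_)
      show S.indicator (fun q => w (v q.2)) (s, x) = 0
      exact indicator_of_notMem (fun h => hx ⟨h.1, lt_of_lt_of_le h.2.1 hs.2⟩) _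
  have hKm : MeasurableSet (closedBall (0 : E) (R + 1) ∩ {x | v x < t}) :=
    measurableSet_closedBall.inter (isOpen_lt hvc continuous_const).measurableSet
  have h3 : ENNReal.ofReal ε * (ENNReal.ofReal c *
      ∫⁻ s in Ioc 0 t, w (s - ε * (M + δ)) * mu v s ^ p) ≤ ENNReal.ofReal ε *
      ∫⁻ x in closedBall 0 (R + 1) ∩ {x | v x < t},
        w (v x) * ENNReal.ofReal (‖fderiv ℝ v x‖ + δ) := by
    calc _ = ∫⁻ s in Ioc 0 t, ENNReal.ofReal (c * ε) * (w (s - ε * (M + δ)) * mu v s ^ p) := by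
          rw [lintegral_const_mul' _ _ ENNReal.ofReal_ne_top, ENNReal.ofReal_mul hc0]; ring
      _ ≤ ∫⁻ s in Ioc 0 t, ∫⁻ x, F (s, x) := setLIntegral_mono' measurableSet_Ioc h1
      _ = ∫⁻ x, ∫⁻ s in Ioc 0 t, F (s, x) :=
          lintegral_lintegral_swap (f := fun s x => F (s, x)) hFm.aemeasurable
      _ ≤ _ := lintegral_mono h2
      _ = _ := by
          rw [lintegral_indicator hKm, lintegral_const_mul' _ _ ENNReal.ofReal_ne_top]
  exact (ENNReal.mul_le_mul_iff_right (by simpa using hε) ENNReal.ofReal_ne_top).1 h3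

/-- The weighted `L¹` inequality (coarea + isoperimetric). -/
lemma l1_ineq {n : ℕ} (hn : finrank ℝ E = n + 1) {v : E → ℝ} (hv : ContDiff ℝ 1 v)
    (hc : HasCompactSupport v) {t : ℝ} (ht : 0 < t) (hm : mu v t ≠ 0) :
    ENNReal.ofReal (((n : ℝ) + 1) * rt (closedBall (0 : E) 1) * t)
      ≤ ∫⁻ x in {x | v x < t}, mu v (v x) ^ (-((n : ℝ) / (n + 1))) * ‖fderiv ℝ v x‖ₑ := by
  set p : ℝ := (n : ℝ) / (n + 1) with hp
  have hp0 : 0 ≤ p := by positivity
  set c : ℝ := ((n : ℝ) + 1) * rt (closedBall (0 : E) 1) with hcdef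
  have hc0 : 0 ≤ c := by have := rt_nonneg (closedBall (0 : E) 1); positivity
  set w : ℝ → ℝ≥0∞ := fun s => mu v s ^ (-p) with hw
  have hwm : Monotone w := w_mono v hp0
  have hvc := hv.continuous
  have hdc : Continuous (fderiv ℝ v) := hv.continuous_fderiv one_ne_zero
  obtain ⟨R, hR⟩ := hc.isCompact.isBounded.subset_closedBall (0 : E)
  obtain ⟨M, hM⟩ := hdc.bounded_above_of_compact_support (hc.fderiv ℝ)
  have hM0 : 0 ≤ M := (norm_nonneg _).trans (hM 0)
  have hLm : MeasurableSet {x | v x < t} := (isOpen_lt hvc continuous_const).measurableSet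
  have hwt : w t ≠ ∞ := by
    simp only [hw, ENNReal.rpow_neg]
    exact ENNReal.inv_ne_top.2 (ENNReal.rpow_pos (pos_iff_ne_zero.2 hm) (mu_ne_top hvc hc ht)).ne'
  have key : ∀ δ : ℝ, 0 < δ → ENNReal.ofReal (c * t) ≤
      ∫⁻ x in closedBall 0 (R + 1) ∩ {x | v x < t},
        w (v x) * ENNReal.ofReal (‖fderiv ℝ v x‖ + δ) := by
    intro δ hδ
    obtain ⟨ε₀, hε₀, hu⟩ := unif_diff hv hc hδ
    set e : ℕ → ℝ := fun k => min ε₀ 1 / ((k : ℝ) + 1) with he
    have hmin : 0 < min ε₀ 1 := lt_min hε₀ one_pos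
    have he0 : ∀ k, 0 < e k := fun k => by positivity
    have he1 : ∀ k, e k ≤ min ε₀ 1 := fun k =>
      div_le_self hmin.le (by linarith [(Nat.cast_nonneg k : (0 : ℝ) ≤ k)])
    have hanti : Antitone fun k => e k * (M + δ) := fun a b hab => by
      have : (a : ℝ) ≤ b := by exact_mod_cast hab
      simp only [he]
      gcongr
    have hlim : Tendsto (fun k => e k * (M + δ)) atTop (𝓝 0) := by
      have := (tendsto_const_div_atTop_nhds_zero_nat (min ε₀ 1)).comp (tendsto_add_atTop_nat 1)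
      have h2 := this.mul_const (M + δ)
      rw [zero_mul] at h2
      refine h2.congr fun k => ?_
      simp [he]
    have hst := fun k => step hn hv hc hm hR hM (he0 k) ((he1 k).trans (min_le_right _ _)) hδ.le
      (fun x y hy => hu x y (hy.trans ((he1 k).trans (min_le_left _ _))))
    have hmeas : ∀ k, Measurable fun s => w (s - e k * (M + δ)) * mu v s ^ p := fun k =>
      (hwm.measurable.comp (measurable_id.sub_const _)).mul
        ((mu_anti v).measurable.pow_const p)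
    have hF : ENNReal.ofReal t ≤
        liminf (fun k => ∫⁻ s in Ioc 0 t, w (s - e k * (M + δ)) * mu v s ^ p) atTop := by
      refine le_trans ?_ (lintegral_liminf_le hmeas)
      have : ∫⁻ _ in Ioc (0 : ℝ) t, (1 : ℝ≥0∞) = ENNReal.ofReal t := by simp
      rw [← this]
      refine setLIntegral_mono' measurableSet_Ioc fun s hs => le_of_eq ?_
      have hs0 : mu v s ≠ 0 := fun h => hm (le_antisymm ((mu_anti v hs.2).trans h.le) bot_le)
      have hs1 := mu_ne_top hvc hc hs.1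
      have hne : mu v s ^ p ≠ ∞ := ENNReal.rpow_ne_top_of_nonneg hp0 hs1
      have hT : Tendsto (fun k => w (s - e k * (M + δ)) * mu v s ^ p) atTop
          (𝓝 (w s * mu v s ^ p)) :=
        ENNReal.Tendsto.mul_const ((ENNReal.continuous_rpow_const.tendsto _).comp
          (tendsto_mu hvc hc hs.1 hanti hlim)) (Or.inr hne)
      rw [hT.liminf_eq]
      simp only [hw]
      rw [← ENNReal.rpow_add _ _ hs0 hs1]
      simp
    calc ENNReal.ofReal (c * t) = ENNReal.ofReal c * ENNReal.ofReal t := ENNReal.ofReal_mul hc0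
      _ ≤ ENNReal.ofReal c *
        liminf (fun k => ∫⁻ s in Ioc 0 t, w (s - e k * (M + δ)) * mu v s ^ p) atTop := by gcongr
      _ = liminf (fun k => ENNReal.ofReal c *
          ∫⁻ s in Ioc 0 t, w (s - e k * (M + δ)) * mu v s ^ p) atTop :=
          (ENNReal.liminf_const_mul_of_ne_top ENNReal.ofReal_ne_top).symm
      _ ≤ _ := liminf_le_of_frequently_le' (Frequently.of_forall hst)
  have hfin : w t * volume (closedBall (0 : E) (R + 1)) ≠ ∞ :=
    ENNReal.mul_ne_top hwt (isCompact_closedBall _ _).measure_lt_top.ne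
  refine ENNReal.le_of_forall_pos_le_add fun η hη _ => ?_
  obtain ⟨δ, hδ, hδη⟩ := ENNReal.exists_nnreal_pos_mul_lt hfin (ENNReal.coe_pos.2 hη).ne'
  have hKm : MeasurableSet (closedBall (0 : E) (R + 1) ∩ {x | v x < t}) :=
    measurableSet_closedBall.inter hLm
  calc ENNReal.ofReal (c * t) ≤ _ := key δ hδ
    _ ≤ ∫⁻ x in closedBall 0 (R + 1) ∩ {x | v x < t},
        (w (v x) * ‖fderiv ℝ v x‖ₑ + δ * w t) := by
        refine setLIntegral_mono' hKm fun x hx => ?_
        rw [ENNReal.ofReal_add (norm_nonneg _) δ.coe_nonneg, ofReal_norm_eq_enorm, mul_add,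
          ENNReal.ofReal_coe_nnreal, mul_comm (δ : ℝ≥0∞)]
        gcongr
        exact hwm (le_of_lt hx.2)
    _ = (∫⁻ x in closedBall 0 (R + 1) ∩ {x | v x < t}, w (v x) * ‖fderiv ℝ v x‖ₑ)
        + δ * w t * volume (closedBall (0 : E) (R + 1) ∩ {x | v x < t}) := by
        rw [lintegral_add_right _ measurable_const, setLIntegral_const]
    _ ≤ _ := by
        refine add_le_add (lintegral_mono_set inter_subset_right) (le_trans ?_ hδη.le)
        rw [mul_assoc]
        gcongr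
        exact inter_subset_left

/-- The distribution function of `mu v ∘ v`. -/
lemma dist_le {v : E → ℝ} (hv : Continuous v) (m : ℝ≥0∞) :
    volume {x | mu v (v x) ≤ m} ≤ m := by
  have hS : MeasurableSet {x | mu v (v x) ≤ m} :=
    measurableSet_le ((mu_anti v).measurable.comp hv.measurable) measurable_const
  rw [hS.measure_eq_iSup_isCompact]
  refine iSup_le fun K => iSup_le fun hK => iSup_le fun hKc => ?_
  rcases K.eq_empty_or_nonempty with rfl | hne
  · simp
  obtain ⟨x₀, hx₀, hmin⟩ := hKc.exists_isMinOn hne hv.continuousOn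
  exact (measure_mono fun y hy => hmin hy).trans (hK hx₀)

lemma weight_sq_le {v : E → ℝ} (hv : Continuous v) (hc : HasCompactSupport v) {t : ℝ}
    (ht : 0 < t) (hm : mu v t ≠ 0) {r : ℝ} (hr : 1 < r) :
    ∫⁻ x in {x | v x < t}, mu v (v x) ^ (-r)
      ≤ ENNReal.ofReal ((mu v t).toReal ^ (1 - r) / (r - 1)) := by
  have hr0 : 0 < r := by linarith
  have hmt := mu_ne_top hv hc ht
  set m₀ := (mu v t).toReal with hm₀
  have hm0 : 0 < m₀ := ENNReal.toReal_pos hm hmt
  have hmu : mu v t = ENNReal.ofReal m₀ := (ENNReal.ofReal_toReal hmt).symm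
  have hLm : MeasurableSet {x | v x < t} := (isOpen_lt hv continuous_const).measurableSet
  have hFm : Measurable fun x => mu v (v x) ^ (-r) :=
    (w_mono v hr0.le).measurable.comp hv.measurable
  have hle : ∀ x, v x < t → mu v (v x) ^ (-r) ≤ ENNReal.ofReal (m₀ ^ (-r)) := fun x hx => by
    have := w_mono v hr0.le hx.le
    simp only at this
    rwa [hmu, ENNReal.ofReal_rpow_of_pos hm0] at this
  have h1 : ∫⁻ x in {x | v x < t}, mu v (v x) ^ (-r)
      = ∫⁻ x in {x | v x < t}, ENNReal.ofReal (mu v (v x) ^ (-r)).toReal :=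
    setLIntegral_congr_fun hLm fun x hx =>
      (ENNReal.ofReal_toReal (ne_top_of_le_ne_top ENNReal.ofReal_ne_top (hle x hx))).symm
  rw [h1, lintegral_eq_lintegral_meas_lt _ (Eventually.of_forall fun _ => ENNReal.toReal_nonneg)
    hFm.ennreal_toReal.aemeasurable]
  set τ₀ := m₀ ^ (-r) with hτ₀
  have hτ0 : 0 < τ₀ := Real.rpow_pos_of_pos hm0 _
  have h2 : ∀ τ ∈ Ioi (0 : ℝ), (volume.restrict {x | v x < t})
      {x | τ < (mu v (v x) ^ (-r)).toReal} ≤
      (Ioc 0 τ₀).indicator (fun τ => ENNReal.ofReal (τ ^ (-r⁻¹) - m₀)) τ := by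
    intro τ hτ
    have hτ' : 0 < τ := hτ
    rw [Measure.restrict_apply' hLm]
    by_cases h : τ ≤ τ₀
    · rw [indicator_of_mem (show τ ∈ Ioc 0 τ₀ from ⟨hτ, h⟩), ENNReal.ofReal_sub _ hm0.le, ← hmu]
      have hτm : mu v t ≤ ENNReal.ofReal (τ ^ (-r⁻¹)) := by
        rw [hmu]
        apply ENNReal.ofReal_le_ofReal
        have := Real.rpow_le_rpow_of_nonpos hτ' h (neg_nonpos.2 (inv_nonneg.2 hr0.le))
        rwa [hτ₀, ← Real.rpow_mul hm0.le, neg_mul_neg, mul_inv_cancel₀ hr0.ne',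
          Real.rpow_one] at this
      apply ENNReal.le_sub_of_add_le_right hmt
      have hdisj : Disjoint ({x | τ < (mu v (v x) ^ (-r)).toReal} ∩ {x | v x < t})
          {x | t ≤ v x} := disjoint_left.2 fun x hx hx' =>
            absurd (show v x < t from hx.2) (not_lt.2 (show t ≤ v x from hx'))
      rw [mu, ← measure_union hdisj (isClosed_le continuous_const hv).measurableSet]
      refine (measure_mono ?_).trans (dist_le hv _)
      rintro x (hx | hx)
      · show mu v (v x) ≤ _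
        have h3 : ENNReal.ofReal τ ≤ mu v (v x) ^ (-r) :=
          (ENNReal.ofReal_le_ofReal (le_of_lt hx.1)).trans ENNReal.ofReal_toReal_le
        have h4 := ENNReal.rpow_le_rpow h3 (inv_nonneg.2 hr0.le)
        rw [← ENNReal.rpow_mul, neg_mul, mul_inv_cancel₀ hr0.ne', ENNReal.rpow_neg_one] at h4
        rw [← ENNReal.ofReal_rpow_of_pos hτ', ENNReal.rpow_neg]
        exact ENNReal.le_inv_iff_le_inv.1 h4
      · exact (mu_anti v hx).trans hτm
    · rw [indicator_of_notMem (fun h' => h h'.2)]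
      refine le_of_eq (measure_mono_null (fun x hx => ?_) measure_empty)
      have := ENNReal.toReal_le_of_le_ofReal hτ0.le (hle x hx.2)
      have h5 : τ < (mu v (v x) ^ (-r)).toReal := hx.1
      exact h (by linarith)
  have hri : -1 < -r⁻¹ := neg_lt_neg (inv_lt_one_of_one_lt₀ hr)
  have hint : IntervalIntegrable (fun τ : ℝ => τ ^ (-r⁻¹) - m₀) volume 0 τ₀ :=
    (intervalIntegral.intervalIntegrable_rpow' hri).sub intervalIntegrable_const
  calc _ ≤ ∫⁻ τ in Ioi 0, (Ioc 0 τ₀).indicator (fun τ => ENNReal.ofReal (τ ^ (-r⁻¹) - m₀)) τ :=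
        setLIntegral_mono' measurableSet_Ioi h2
    _ ≤ ∫⁻ τ, (Ioc 0 τ₀).indicator (fun τ => ENNReal.ofReal (τ ^ (-r⁻¹) - m₀)) τ :=
        setLIntegral_le_lintegral _ _
    _ = ∫⁻ τ in Ioc 0 τ₀, ENNReal.ofReal (τ ^ (-r⁻¹) - m₀) := lintegral_indicator measurableSet_Ioc _
    _ = ENNReal.ofReal (∫ τ in Ioc 0 τ₀, (τ ^ (-r⁻¹) - m₀)) := by
        refine (ofReal_integral_eq_lintegral_ofReal hint.1 ?_).symm
        refine (ae_restrict_iff' measurableSet_Ioc).2 (Eventually.of_forall fun τ hτ => ?_)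
        have := Real.rpow_le_rpow_of_nonpos hτ.1 hτ.2 (neg_nonpos.2 (inv_nonneg.2 hr0.le))
        rw [hτ₀, ← Real.rpow_mul hm0.le, neg_mul_neg, mul_inv_cancel₀ hr0.ne',
          Real.rpow_one] at this
        show 0 ≤ τ ^ (-r⁻¹) - m₀
        linarith
    _ = _ := by
        rw [← intervalIntegral.integral_of_le hτ0.le, intervalIntegral.integral_sub
          (intervalIntegral.intervalIntegrable_rpow' hri) intervalIntegrable_const,
          integral_rpow (Or.inl hri), Real.zero_rpow (by linarith),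
          intervalIntegral.integral_const, hτ₀, ← Real.rpow_mul hm0.le]
        congr 1
        have e1 : -r * (-r⁻¹ + 1) = 1 - r := by field_simp; ring
        have e2 : m₀ ^ (-r) * m₀ = m₀ ^ (1 - r) := by
          rw [← Real.rpow_add_one hm0.ne']; congr 1; ring
        have hr1 : r - 1 ≠ 0 := by linarith
        have e3 : -r⁻¹ + 1 = (r - 1) / r := by field_simp; ring
        rw [e1, sub_zero, sub_zero, smul_eq_mul, e2, e3]
        field_simp
        ring

lemma l2_ineq {n : ℕ} (hn : finrank ℝ E = n + 1) {v : E → ℝ} (hv : ContDiff ℝ 1 v)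
    (hc : HasCompactSupport v) {t : ℝ} (ht : 0 < t) (hm : mu v t ≠ 0) {p : ℝ}
    (hp : p = (n : ℝ) / (n + 1)) (hr : 1 < 2 * p) :
    (((n : ℝ) + 1) * rt (closedBall (0 : E) 1) * t) ^ 2
      ≤ (mu v t).toReal ^ (1 - 2 * p) / (2 * p - 1) * ∫ x, ‖fderiv ℝ v x‖ ^ 2 := by
  have hvc := hv.continuous
  have hdc : Continuous (fderiv ℝ v) := hv.continuous_fderiv one_ne_zero
  have hI0 : 0 ≤ ∫ x, ‖fderiv ℝ v x‖ ^ 2 := integral_nonneg fun _ => by positivity
  have hp0 : 0 ≤ p := by linarith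
  have hint : Integrable fun x => ‖fderiv ℝ v x‖ ^ 2 :=
    (hdc.norm.pow 2).integrable_of_hasCompactSupport
      (HasCompactSupport.intro (hc.fderiv ℝ).isCompact fun x hx => by
        simp [image_eq_zero_of_notMem_tsupport hx])
  have hH := ENNReal.lintegral_mul_le_Lp_mul_Lq (volume.restrict {x | v x < t})
    Real.HolderConjugate.two_two (f := fun x => mu v (v x) ^ (-p))
    (g := fun x => ‖fderiv ℝ v x‖ₑ)
    ((w_mono v hp0).measurable.comp hvc.measurable).aemeasurable hdc.enorm.aemeasurable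
  have hA : ∫⁻ x in {x | v x < t}, (mu v (v x) ^ (-p)) ^ (2 : ℝ)
      ≤ ENNReal.ofReal ((mu v t).toReal ^ (1 - 2 * p) / (2 * p - 1)) := by
    refine le_trans (le_of_eq ?_) (weight_sq_le hvc hc ht hm hr)
    refine lintegral_congr fun x => ?_
    rw [← ENNReal.rpow_mul]; congr 1; ring
  have hB : ∫⁻ x in {x | v x < t}, ‖fderiv ℝ v x‖ₑ ^ (2 : ℝ)
      ≤ ENNReal.ofReal (∫ x, ‖fderiv ℝ v x‖ ^ 2) := by
    rw [ofReal_integral_eq_lintegral_ofReal hint (Eventually.of_forall fun _ => by positivity)]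
    refine (setLIntegral_le_lintegral _ _).trans (le_of_eq (lintegral_congr fun x => ?_))
    rw [ENNReal.ofReal_pow (norm_nonneg _), ofReal_norm_eq_enorm, ENNReal.rpow_two]
  have hL := l1_ineq hn hv hc ht hm
  rw [← hp] at hL
  replace hL := hL.trans hH
  have hq : 0 ≤ (mu v t).toReal ^ (1 - 2 * p) / (2 * p - 1) :=
    div_nonneg (Real.rpow_nonneg ENNReal.toReal_nonneg _) (by linarith)
  have hb := rt_nonneg (closedBall (0 : E) 1)
  have ha : 0 ≤ ((n : ℝ) + 1) * rt (closedBall (0 : E) 1) * t := by positivity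
  generalize (mu v t).toReal ^ (1 - 2 * p) / (2 * p - 1) = X at hA hq ⊢
  generalize ∫ x, ‖fderiv ℝ v x‖ ^ 2 = Y at hB hI0 ⊢
  generalize ((n : ℝ) + 1) * rt (closedBall (0 : E) 1) * t = a at ha hL ⊢
  have hL2 : ENNReal.ofReal a ≤ ENNReal.ofReal ((X * Y) ^ (1 / 2 : ℝ)) := by
    rw [Real.mul_rpow hq hI0, ENNReal.ofReal_mul (Real.rpow_nonneg hq _),
      ← ENNReal.ofReal_rpow_of_nonneg hq (by norm_num),
      ← ENNReal.ofReal_rpow_of_nonneg hI0 (by norm_num)]
    exact hL.trans (mul_le_mul' (ENNReal.rpow_le_rpow hA (by norm_num))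
      (ENNReal.rpow_le_rpow hB (by norm_num)))
  have hXY := mul_nonneg hq hI0
  have hL3 := (ENNReal.ofReal_le_ofReal_iff (Real.rpow_nonneg hXY _)).1 hL2
  rw [← Real.sqrt_eq_rpow] at hL3
  exact (Real.le_sqrt ha hXY).1 hL3

/-- The sharp isocapacitary inequality, raw form (`dim E = n + 1 ≥ 3`). -/
theorem iso_raw {n : ℕ} (hn : finrank ℝ E = n + 1) (h2 : 2 ≤ n) {v : E → ℝ} (hv : ContDiff ℝ 1 v)
    (hc : HasCompactSupport v) {t : ℝ} (ht : 0 < t) :
    ((n : ℝ) + 1) * ((n : ℝ) - 1) * rt (closedBall (0 : E) 1) ^ 2 * t ^ 2 *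
      volume.real {x | t ≤ v x} ^ (((n : ℝ) - 1) / (n + 1)) ≤ ∫ x, ‖fderiv ℝ v x‖ ^ 2 := by
  have hn2 : (2 : ℝ) ≤ n := by exact_mod_cast h2
  have hI0 : 0 ≤ ∫ x, ‖fderiv ℝ v x‖ ^ 2 := integral_nonneg fun _ => by positivity
  have e0 : volume.real {x | t ≤ v x} = (mu v t).toReal := rfl
  have hn1 : 0 < (n : ℝ) - 1 := by linarith
  have hn3 : 0 < (n : ℝ) + 1 := by linarith
  rw [e0]
  by_cases hm : mu v t = 0
  · rw [hm, ENNReal.toReal_zero, Real.zero_rpow (div_pos hn1 hn3).ne', mul_zero]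
    exact hI0
  have hr : 1 < 2 * ((n : ℝ) / (n + 1)) := by
    rw [← mul_div_assoc, lt_div_iff₀ hn3]; linarith
  have hm0 : 0 < (mu v t).toReal := ENNReal.toReal_pos hm (mu_ne_top hv.continuous hc ht)
  have hL3 := l2_ineq hn hv hc ht hm rfl hr
  have e1 : 1 - 2 * ((n : ℝ) / (n + 1)) = -(((n : ℝ) - 1) / (n + 1)) := by field_simp; ring
  have e2 : 2 * ((n : ℝ) / (n + 1)) - 1 = ((n : ℝ) - 1) / (n + 1) := by linarith
  rw [e1, e2, Real.rpow_neg hm0.le] at hL3
  have hX : 0 < (mu v t).toReal ^ (((n : ℝ) - 1) / (n + 1)) := Real.rpow_pos_of_pos hm0 _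
  generalize (mu v t).toReal ^ (((n : ℝ) - 1) / (n + 1)) = X at *
  generalize ∫ x, ‖fderiv ℝ v x‖ ^ 2 = Y at *
  have hL4 := mul_le_mul_of_nonneg_left hL3 (mul_pos hX (div_pos hn1 hn3)).le
  calc _ = X * (((n : ℝ) - 1) / (n + 1)) *
        (((n : ℝ) + 1) * rt (closedBall (0 : E) 1) * t) ^ 2 := by field_simp
    _ ≤ _ := hL4
    _ = _ := by field_simp

end Crest.Agent.N346.Iso
end
end

-- ▼ part N346/P2/IsoFlat
section

/-! Row 346, P2f: the sharp Euclidean isocapacitary inequality. -/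

set_option autoImplicit false
open MeasureTheory Set Filter Topology Metric Module
open scoped ENNReal
open Crest.Agent.R230 Crest.Agent.N346.Bs
open Crest.GeometryTopology.CoordMetric
open Crest.MathPhysics.ExteriorData

noncomputable section
namespace Crest.Agent.N346.P2

variable {n : ℕ}

theorem volume_real_unitBall (hn : 0 < n) :
    volume.real (closedBall (0 : E n) 1) = unitSphereArea n / n := by
  have : Nonempty (Fin n) := ⟨⟨0, hn⟩⟩
  have hn' : (0 : ℝ) < n := by exact_mod_cast hn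
  have hG : 0 < Real.Gamma ((n : ℝ) / 2) := Real.Gamma_pos_of_pos (by positivity)
  have hpi := Real.pi_pos
  rw [measureReal_def, EuclideanSpace.volume_closedBall,
    Fintype.card_fin, Real.Gamma_add_one (by positivity),
    ENNReal.ofReal_one, one_pow, one_mul, ENNReal.toReal_ofReal (by positivity), unitSphereArea,
    Real.sqrt_eq_rpow, ← Real.rpow_natCast, ← Real.rpow_mul hpi.le,
    show 1 / 2 * (n : ℝ) = n / 2 by ring]
  field_simp

theorem beta_eq (hn : 3 ≤ n) : 1 + 2 * aa n = (n : ℝ) / (n - 2) := by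
  have : (3 : ℝ) ≤ n := by exact_mod_cast hn
  have h : (n : ℝ) - 2 ≠ 0 := by linarith
  rw [aa]; field_simp; ring

theorem beta_pos (hn : 3 ≤ n) : 0 < 1 + 2 * aa n := by
  have : (3 : ℝ) ≤ n := by exact_mod_cast hn
  rw [beta_eq hn]; exact div_pos (by linarith) (by linarith)

theorem cn_pos (hn : 3 ≤ n) : 0 < cn n := by
  have : (3 : ℝ) ≤ n := by exact_mod_cast hn
  have hω := unitSphereArea_pos (n := n) (by omega)
  have h2 : 0 < (n : ℝ) - 2 := by linarith
  unfold cn
  positivity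

/-- The sharp isocapacitary inequality at level `t`. -/
theorem iso_level (hn : 3 ≤ n) {u : E n → ℝ} (hu : ContDiff ℝ 1 u) (hc : HasCompactSupport u)
    {t : ℝ} (ht : 0 < t) : volume {x | t ≤ u x} ≤
      ENNReal.ofReal (cn n * ((∫ x, ‖fderiv ℝ u x‖ ^ 2) / t ^ 2) ^ (1 + 2 * aa n)) := by
  have hN : (3 : ℝ) ≤ n := by exact_mod_cast hn
  have hω := unitSphereArea_pos (n := n) (by omega)
  have h2 : 0 < (n : ℝ) - 2 := by linarith
  have h0 : 0 < (n : ℝ) := by linarith
  obtain ⟨k, rfl⟩ : ∃ k, n = k + 1 := ⟨n - 1, by omega⟩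
  have h := Iso.iso_raw (n := k) (finrank_euclideanSpace_fin (𝕜 := ℝ)) (by omega) hu hc ht
  have e1 : (k : ℝ) + 1 = ((k + 1 : ℕ) : ℝ) := by push_cast; ring
  have e2 : (k : ℝ) - 1 = ((k + 1 : ℕ) : ℝ) - 2 := by push_cast; ring
  rw [e1, e2, rt, volume_real_unitBall (by omega), finrank_euclideanSpace_fin] at h
  have hfin : volume {x | t ≤ u x} ≠ ∞ := Iso.mu_ne_top hu.continuous hc ht
  rw [← ofReal_measureReal hfin, cn, beta_eq hn]
  apply ENNReal.ofReal_le_ofReal
  have hm : 0 ≤ volume.real {x | t ≤ u x} := measureReal_nonneg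
  have hI : 0 ≤ ∫ x, ‖fderiv ℝ u x‖ ^ 2 := integral_nonneg fun _ => by positivity
  generalize volume.real {x | t ≤ u x} = m at h hm ⊢
  generalize ∫ x, ‖fderiv ℝ u x‖ ^ 2 = I at h hI ⊢
  generalize unitSphereArea (k + 1) = ω at h hω ⊢
  generalize ((k + 1 : ℕ) : ℝ) = N at h h0 h2 ⊢
  have hw : 0 < ω / N := by positivity
  have e3 : (N - 2) * ω = N * (N - 2) * (ω / N) := by field_simp
  rw [e3]
  generalize ω / N = w at h hw ⊢
  have hb : 0 < (w ^ (1 / N)) ^ 2 := by positivity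
  have h3 : m ^ ((N - 2) / N) ≤ I / t ^ 2 * (N * (N - 2) * (w ^ (1 / N)) ^ 2)⁻¹ := by
    rw [← div_eq_mul_inv, div_div, le_div_iff₀ (by positivity)]
    linarith
  have h4 := Real.rpow_le_rpow (by positivity) h3 (show 0 ≤ N / (N - 2) by positivity)
  rw [← Real.rpow_mul hm, show (N - 2) / N * (N / (N - 2)) = 1 by field_simp, Real.rpow_one,
    Real.mul_rpow (by positivity) (by positivity), mul_comm] at h4
  refine h4.trans (le_of_eq ?_)
  congr 1
  rw [Real.inv_rpow (by positivity), ← Real.rpow_neg (by positivity),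
    Real.mul_rpow (by positivity) hb.le, Real.mul_rpow (x := N * (N - 2)) (by positivity) hw.le,
    ← Real.rpow_natCast, ← Real.rpow_mul hw.le, ← Real.rpow_mul hw.le, mul_left_comm,
    ← Real.rpow_one_add' hw.le (by
      have : 1 + -(N / (N - 2)) = -2 / (N - 2) := by field_simp; ring
      rw [this]; exact div_ne_zero (by norm_num) h2.ne')]
  congr 2
  push_cast
  field_simp
  ring


end Crest.Agent.N346.P2
end
end

-- ▼ part N346/P2/Iso
section

/-! Row 346, P2g: the isocapacitary and the Sobolev inequality for the Dirichlet class. -/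

set_option autoImplicit false
open MeasureTheory Set Filter Topology Metric Module
open scoped ENNReal NNReal
open Crest.Agent.N346.Bs
open Crest.GeometryTopology.CoordMetric
open Crest.MathPhysics.ExteriorData

noncomputable section
namespace Crest.Agent.N346.P2

variable {n : ℕ} {g F : MetricField n}

theorem meas_le_of_ae {α : Type*} [MeasurableSpace α] {ν : Measure α} {S : Set α} {T : ℕ → Set α}
    (h : ∀ᵐ x ∂ν, x ∈ S → ∀ᶠ j in atTop, x ∈ T j) {b : ℕ → ℝ≥0∞} {b₀ : ℝ≥0∞}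
    (hb : ∀ j, ν (T j) ≤ b j) (hl : Tendsto b atTop (𝓝 b₀)) : ν S ≤ b₀ := by
  have h1 : ν S ≤ ν (⋃ N : ℕ, ⋂ j ≥ N, T j) := measure_mono_ae (h.mono fun x hx hS => by
    obtain ⟨N, hN⟩ := eventually_atTop.1 (hx hS)
    exact mem_iUnion.2 ⟨N, mem_iInter₂.2 hN⟩)
  have hmono : Monotone fun N : ℕ => ⋂ j ≥ N, T j := fun a b hab x hx =>
    mem_iInter₂.2 fun j hj => mem_iInter₂.1 hx j (le_trans hab hj)
  rw [hmono.measure_iUnion] at h1
  refine h1.trans (iSup_le fun N => ge_of_tendsto hl ?_)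
  filter_upwards [eventually_ge_atTop N] with j hj
  exact (measure_mono fun x hx => mem_iInter₂.1 hx j hj).trans (hb j)

theorem EndD.pinch {U : E n → ℝ} {μ : ℝ} (h : EndD n g U μ) {κ : ℝ} (hκ : 0 < κ) :
    ∃ R : ℝ, 0 < R ∧ ∀ x, R ≤ ‖x‖ → volDensity g x ≤ 1 + κ ∧
      ∀ u : E n → ℝ, ‖fderiv ℝ u x‖ ^ 2 ≤ (1 + κ) * (gradSq g u x * volDensity g x) := by
  obtain ⟨R₀, hR₀⟩ := h.g_inf
  set c : E n → ℝ := fun x => U x ^ (4 / ((n : ℝ) - 2)) with hc
  have hc0 : ∀ x, 0 < c x := fun x => Real.rpow_pos_of_pos (h.U_pos x) _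
  have hc1 : Tendsto c (cocompact (E n)) (𝓝 1) := by
    simpa using h.U_lim.rpow_const (p := 4 / ((n : ℝ) - 2)) (Or.inl one_ne_zero)
  have hs : Tendsto (fun x => √(c x ^ n)) (cocompact (E n)) (𝓝 1) := by
    simpa using (hc1.pow n).sqrt
  have e1 := hs.eventually (gt_mem_nhds (show (1 : ℝ) < 1 + κ by linarith))
  have e2 := ((hs.const_mul (1 + κ)).sub hc1).eventually
    (lt_mem_nhds (show (0 : ℝ) < (1 + κ) * 1 - 1 by linarith))
  obtain ⟨K, hK, hKs⟩ := (hasBasis_cocompact.eventually_iff).1 (e1.and e2)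
  obtain ⟨R₁, hR₁⟩ := hK.isBounded.subset_ball (0 : E n)
  refine ⟨max (max R₀ R₁) 1, lt_max_of_lt_right one_pos, fun x hx => ?_⟩
  have hx0 : R₀ ≤ ‖x‖ := ((le_max_left _ _).trans (le_max_left _ _)).trans hx
  have hx1 : R₁ ≤ ‖x‖ := ((le_max_right _ _).trans (le_max_left _ _)).trans hx
  obtain ⟨p1, p2⟩ := hKs (show x ∈ Kᶜ from fun hxK => by
    have := hR₁ hxK
    rw [mem_ball_zero_iff] at this
    linarith)
  have hq : ∀ w : E n, quadForm g x w = c x * ‖w‖ ^ 2 := fun w => by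
    rw [quadForm, hR₀ x hx0, norm_sq_eq, Finset.mul_sum]
    refine Finset.sum_congr rfl fun i _ => ?_
    simp [Matrix.one_apply, hc, mul_assoc]
  have hv : volDensity g x = √(c x ^ n) := by
    rw [volDensity, le_antisymm (det_le h.riem (hc0 x) fun w => (hq w).le)
      (le_det h.riem (hc0 x).le fun w => (hq w).ge)]
  refine ⟨hv ▸ p1.le, fun u => ?_⟩
  have h1 := le_gradSq h.riem (hc0 x) (fun w => (hq w).le) u
  rw [inv_mul_le_iff₀ (hc0 x)] at h1
  have h2 := gradSq_nonneg h.riem u x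
  rw [hv]
  nlinarith

theorem add_rpow_le_aux {x y κ β : ℝ} (hx : 0 ≤ x) (hy : 0 ≤ y) (hκ : 0 < κ) (hβ : 0 ≤ β) :
    (x + y) ^ β ≤ ((1 + κ) * x) ^ β + ((1 + κ⁻¹) * y) ^ β := by
  have h1 : 0 ≤ ((1 + κ) * x) ^ β := by positivity
  have h2 : 0 ≤ ((1 + κ⁻¹) * y) ^ β := by positivity
  rcases le_total y (κ * x) with h | h
  · have := Real.rpow_le_rpow (add_nonneg hx hy) (show x + y ≤ (1 + κ) * x by linarith) hβ
    linarith
  · have h3 : x ≤ κ⁻¹ * y := by rwa [le_inv_mul_iff₀ hκ]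
    have := Real.rpow_le_rpow (add_nonneg hx hy) (show x + y ≤ (1 + κ⁻¹) * y by linarith) hβ
    linarith

theorem arctan_lower {κ : ℝ} (hκ : 0 < κ) : κ / (1 + κ) ≤ Real.arctan κ := by
  have h1 := Real.sin_le (Real.arctan_pos.2 hκ).le
  rw [Real.sin_arctan] at h1
  refine le_trans ?_ h1
  have : √(1 + κ ^ 2) ≤ 1 + κ := Real.sqrt_le_iff.2 ⟨by positivity, by nlinarith⟩
  gcongr

/-- the estimate for `C¹_c` functions -/
theorem iso_cc (hn : 3 ≤ n) {U : E n → ℝ} {μ : ℝ} (h : EndD n g U μ) {κ : ℝ} (hκ : 0 < κ) :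
    ∃ C : ℝ, ∀ v : E n → ℝ, ContDiff ℝ 1 v → HasCompactSupport v → ∀ t : ℝ, 0 < t →
      nu g {x | t < v x} ≤ ENNReal.ofReal (C + (1 + κ) * ((1 + κ) ^ 5) ^ (1 + 2 * aa n) * cn n *
        ((∫ x, gradSq g v x * volDensity g x) / t ^ 2) ^ (1 + 2 * aa n)) := by
  obtain ⟨R, hR, hp⟩ := h.pinch hκ
  have hβ := (beta_pos hn).le
  have hcn := cn_pos hn
  set β := 1 + 2 * aa n
  have := isLocallyFinite_nu h.riem
  have hfin : nu g (closedBall 0 (2 * R)) ≠ ∞ := (isCompact_closedBall _ _).measure_lt_top.ne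
  have hχ : ContDiff ℝ 1 (eta R : E n → ℝ) := smooth_one (contDiff_eta R)
  have hint : ∀ u : E n → ℝ, ContDiff ℝ 1 u → HasCompactSupport u →
      Integrable fun x => ‖fderiv ℝ u x‖ ^ 2 := fun u hu hc =>
    ((hu.continuous_fderiv one_ne_zero).norm.pow 2).integrable_of_hasCompactSupport
      (HasCompactSupport.intro (hc.fderiv ℝ).isCompact fun x hx => by
        simp [image_eq_zero_of_notMem_tsupport hx])
  set J := ∫ x : E n, ‖fderiv ℝ (eta R) x‖ ^ 2 with hJ
  have hJ0 : 0 ≤ J := integral_nonneg fun _ => by positivity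
  set K := (1 + κ⁻¹) * (2 / κ) ^ 2 with hK
  have hK0 : 0 ≤ K := by positivity
  refine ⟨(nu g (closedBall 0 (2 * R))).toReal +
    (1 + κ) * cn n * ((1 + κ⁻¹) * ((1 + κ) ^ 2 * (K * J))) ^ β, fun v hv hc t ht => ?_⟩
  set Θ : ℝ → ℝ := fun s => t / κ * Real.arctan (κ / t * s) with hΘ
  have hΘd : ∀ s, HasDerivAt Θ (1 / (1 + (κ / t * s) ^ 2)) s := fun s => by
    have := (((hasDerivAt_id' s).const_mul (κ / t)).arctan).const_mul (t / κ)
    refine this.congr_deriv ?_
    field_simp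
  have hΘc : ContDiff ℝ 1 Θ :=
    contDiff_const.mul (Real.contDiff_arctan.comp (contDiff_const.mul contDiff_id))
  have hΘb : ∀ s, |Θ s| ≤ t * (2 / κ) := fun s => by
    have h1 := Real.arctan_lt_pi_div_two (κ / t * s)
    have h2 := Real.neg_pi_div_two_lt_arctan (κ / t * s)
    have h3 : |Real.arctan (κ / t * s)| ≤ 2 := abs_le.2 ⟨by linarith [Real.pi_le_four],
      by linarith [Real.pi_le_four]⟩
    rw [hΘ]
    simp only
    rw [abs_mul, abs_of_pos (by positivity : 0 < t / κ)]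
    calc t / κ * |Real.arctan (κ / t * s)| ≤ t / κ * 2 := by gcongr
      _ = _ := by ring
  set w : E n → ℝ := fun x => (1 - eta R x) * Θ (v x) with hw
  have hwc : ContDiff ℝ 1 w := (contDiff_const.sub hχ).mul (hΘc.comp hv)
  have hws : HasCompactSupport w := HasCompactSupport.intro hc.isCompact fun x hx => by
    simp [hw, hΘ, image_eq_zero_of_notMem_tsupport hx]
  have hgi : Integrable fun x => gradSq g v x * volDensity g x :=
    ((continuous_gradDot h.riem hv hv).mul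
      (contDiff_volDensity h.riem).continuous).integrable_of_hasCompactSupport
      (HasCompactSupport.intro hc.isCompact fun x hx => by
        simp [gradSq, gradDot_of_zero (pd_of_notMem hx)])
  have hg0 : ∀ x, 0 ≤ gradSq g v x * volDensity g x := fun x =>
    mul_nonneg (gradSq_nonneg h.riem v x) (volDensity_pos h.riem x).le
  have hpt : ∀ x, ‖fderiv ℝ w x‖ ^ 2 ≤ (1 + κ) ^ 2 * (gradSq g v x * volDensity g x)
      + t ^ 2 * K * ‖fderiv ℝ (eta R) x‖ ^ 2 := fun x => by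
    have d1 := ((hχ.differentiable one_ne_zero x).hasFDerivAt.const_sub 1).mul
      ((hΘd (v x)).comp_hasFDerivAt x (hv.differentiable one_ne_zero x).hasFDerivAt)
    have e : fderiv ℝ w x = _ := d1.fderiv
    rcases le_total ‖x‖ R with hx | hx
    · rw [e, fderiv_eta_of_le hR hx, eta_eq_one hR hx]
      have := hg0 x
      simp only [sub_self, zero_smul, neg_zero, smul_zero, add_zero, norm_zero]
      nlinarith [mul_nonneg (sq_nonneg (1 + κ)) this]
    have ha : ‖fderiv ℝ w x‖ ≤ ‖fderiv ℝ v x‖ + t * (2 / κ) * ‖fderiv ℝ (eta R) x‖ := by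
      rw [e]
      refine (norm_add_le _ _).trans (add_le_add ?_ ?_)
      · rw [norm_smul, norm_smul, Real.norm_of_nonneg (sub_nonneg.2 (eta_le_one R x)),
          Real.norm_of_nonneg (by positivity), ← mul_assoc]
        refine mul_le_of_le_one_left (norm_nonneg _) (mul_le_one₀ (by linarith [eta_nonneg R x])
          (by positivity) ?_)
        rw [div_le_one (by positivity)]; nlinarith [sq_nonneg (κ / t * v x)]
      · rw [norm_smul, norm_neg]
        gcongr
        exact hΘb _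
    have hb := (hp x hx).2 v
    have hc2 := pow_le_pow_left₀ (norm_nonneg _) ha 2
    generalize ‖fderiv ℝ v x‖ = a at *
    have e2 : t ^ 2 * K * ‖fderiv ℝ (eta R) x‖ ^ 2
        = (1 + κ⁻¹) * (t * (2 / κ) * ‖fderiv ℝ (eta R) x‖) ^ 2 := by rw [hK]; ring
    rw [e2]
    generalize t * (2 / κ) * ‖fderiv ℝ (eta R) x‖ = b at *
    have h5 : 2 * a * b ≤ κ * a ^ 2 + κ⁻¹ * b ^ 2 := by
      have : 0 ≤ κ⁻¹ * (κ * a - b) ^ 2 := by positivity
      have e3 : κ⁻¹ * (κ * a - b) ^ 2 = κ * a ^ 2 + κ⁻¹ * b ^ 2 - 2 * a * b := by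
        field_simp; ring
      linarith
    nlinarith
  set I := ∫ x, gradSq g v x * volDensity g x with hI
  have hI0 : 0 ≤ I := integral_nonneg hg0
  have hE : ∫ x, ‖fderiv ℝ w x‖ ^ 2 ≤ (1 + κ) ^ 2 * I + t ^ 2 * K * J := by
    have i2 := (hint _ hχ (hasCompactSupport_eta hR)).const_mul (t ^ 2 * K)
    have := integral_mono (hint w hwc hws) ((hgi.const_mul ((1 + κ) ^ 2)).add i2) hpt
    simp only [Pi.add_apply] at this
    rwa [integral_add (hgi.const_mul _) i2, integral_const_mul, integral_const_mul] at this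
  have ht' : 0 < t / (1 + κ) := by positivity
  have hiso := iso_level hn hwc hws ht'
  have hX : ((∫ x, ‖fderiv ℝ w x‖ ^ 2) / (t / (1 + κ)) ^ 2) ^ β ≤
      ((1 + κ) ^ 5) ^ β * (I / t ^ 2) ^ β + ((1 + κ⁻¹) * ((1 + κ) ^ 2 * (K * J))) ^ β := by
    have h1 : (∫ x, ‖fderiv ℝ w x‖ ^ 2) / (t / (1 + κ)) ^ 2
        ≤ (1 + κ) ^ 4 * (I / t ^ 2) + (1 + κ) ^ 2 * (K * J) := by
      rw [div_le_iff₀ (by positivity)]
      refine hE.trans (le_of_eq ?_)
      field_simp
    refine (Real.rpow_le_rpow (div_nonneg (integral_nonneg fun _ => by positivity)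
      (by positivity)) h1 hβ).trans ((add_rpow_le_aux (by positivity) (by positivity) hκ hβ).trans
        (le_of_eq ?_))
    rw [← Real.mul_rpow (by positivity) (by positivity)]
    congr 2; ring
  have hsub : {x | t < v x} ⊆ closedBall 0 (2 * R) ∪
      ({x | t / (1 + κ) ≤ w x} ∩ {x | R ≤ ‖x‖}) := fun x hx => by
    by_cases hx2 : ‖x‖ ≤ 2 * R
    · exact Or.inl (mem_closedBall_zero_iff.2 hx2)
    refine Or.inr ⟨?_, show R ≤ ‖x‖ by linarith⟩
    have hx' : t < v x := hx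
    show t / (1 + κ) ≤ (1 - eta R x) * (t / κ * Real.arctan (κ / t * v x))
    rw [eta_eq_zero hR (by linarith), sub_zero, one_mul]
    have h1 : κ ≤ κ / t * v x := by
      rw [div_mul_eq_mul_div, le_div_iff₀ ht]; gcongr
    calc t / (1 + κ) = t / κ * (κ / (1 + κ)) := by field_simp
      _ ≤ _ := by
        gcongr
        exact (arctan_lower hκ).trans (Real.arctan_mono h1)
  have hm : MeasurableSet ({x | t / (1 + κ) ≤ w x} ∩ {x : E n | R ≤ ‖x‖}) :=
    (isClosed_le continuous_const hwc.continuous).measurableSet.inter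
      (isClosed_le continuous_const continuous_norm).measurableSet
  have h2 : nu g ({x | t / (1 + κ) ≤ w x} ∩ {x | R ≤ ‖x‖})
      ≤ ENNReal.ofReal (1 + κ) * volume {x | t / (1 + κ) ≤ w x} := by
    rw [nu, withDensity_apply _ hm]
    refine (setLIntegral_mono' hm fun x hx =>
      ENNReal.ofReal_le_ofReal (hp x hx.2).1).trans ?_
    rw [setLIntegral_const]
    gcongr
    exact inter_subset_left
  calc nu g {x | t < v x} ≤ nu g (closedBall 0 (2 * R)) +
        nu g ({x | t / (1 + κ) ≤ w x} ∩ {x | R ≤ ‖x‖}) :=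
        (measure_mono hsub).trans (measure_union_le _ _)
    _ ≤ ENNReal.ofReal (nu g (closedBall 0 (2 * R))).toReal + ENNReal.ofReal (1 + κ) *
        ENNReal.ofReal (cn n * (((1 + κ) ^ 5) ^ β * (I / t ^ 2) ^ β
          + ((1 + κ⁻¹) * ((1 + κ) ^ 2 * (K * J))) ^ β)) := by
        rw [ENNReal.ofReal_toReal hfin]
        gcongr
        refine h2.trans ?_
        gcongr
        refine hiso.trans (ENNReal.ofReal_le_ofReal ?_)
        gcongr
    _ = _ := by
        rw [← ENNReal.ofReal_mul (by positivity),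
          ← ENNReal.ofReal_add ENNReal.toReal_nonneg (by positivity)]
        congr 1; ring

theorem iso' : IsoStmt := by
  intro n hn g F U μ h hF η hη
  have hβ := (beta_pos hn).le
  have hcont : ContinuousAt (fun κ : ℝ => (1 + κ) * ((1 + κ) ^ 5) ^ (1 + 2 * aa n)) 0 :=
    (by fun_prop : ContinuousAt (fun κ : ℝ => 1 + κ) 0).mul
      ((by fun_prop : ContinuousAt (fun κ : ℝ => (1 + κ) ^ 5) 0).rpow_const (Or.inr hβ))
  have hev := hcont.eventually (gt_mem_nhds (show _ < 1 + η by simpa using hη))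
  obtain ⟨κ, hκ1, hκ⟩ := ((hev.filter_mono nhdsWithin_le_nhds).and
    (self_mem_nhdsWithin (s := Ioi (0 : ℝ)))).exists
  obtain ⟨C, hC⟩ := iso_cc hn h hκ
  refine ⟨C, fun u G hu _ t ht => ?_⟩
  obtain ⟨v, M, v1, v2, -, v4, v5⟩ := hu.approx
  have hl := L2T.tendsto_normSq v5 (fun j => hF.memLp_fgrad (v1 j) (v2 j) 2) hu.memG
  refine meas_le_of_ae (T := fun j => {x | t < v j x}) (v4.mono fun x hx hxt => ?_)
    (b := fun j => ENNReal.ofReal (C + (1 + η) * cn n *
      ((∫ x, ‖fgrad F (v j) x‖ ^ 2 ∂(nu g)) / t ^ 2) ^ (1 + 2 * aa n))) (fun j => ?_) ?_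
  · rw [sub_zero] at hx
    exact hx.eventually (lt_mem_nhds hxt)
  · refine (hC _ (v1 j) (v2 j) t ht.1).trans (ENNReal.ofReal_le_ofReal ?_)
    rw [integral_nu hF.riem]
    simp only [hF.norm_fgrad_sq]
    have := cn_pos hn
    have h0 : 0 ≤ ∫ x, gradSq g (v j) x * volDensity g x := integral_nonneg fun x =>
      mul_nonneg (gradSq_nonneg h.riem _ x) (volDensity_pos h.riem x).le
    gcongr
  · exact ENNReal.tendsto_ofReal (tendsto_const_nhds.add
      (((hl.div_const _).rpow_const (Or.inr hβ)).const_mul _))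

theorem iso : IsoFlatStmt → IsoStmt := fun _ => iso'

theorem sob_cc (hn : 3 ≤ n) (h : Fr g F) (vol : ℝ) : ∃ C : ℝ≥0∞, C ≠ ∞ ∧ ∀ v : E n → ℝ,
    ContDiff ℝ 1 v → HasCompactSupport v → ∀ Ω : Set (E n), nu g Ω ≤ ENNReal.ofReal vol →
      eLpNorm v 2 ((nu g).restrict Ω) ≤ C * eLpNorm (fgrad F v) 2 (nu g) := by
  obtain ⟨K, hK0, hK, h1, h2⟩ := h.exists_nu_le
  obtain ⟨L, hL1, hL⟩ := h.exists_grad_bd
  have hN : (3 : ℝ) ≤ n := by exact_mod_cast hn
  have h2n : 0 < (n : ℝ) - 2 := by linarith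
  set p' : ℝ≥0 := ⟨2 * n / (n - 2), by positivity⟩ with hp'
  have hp'2 : (2 : ℝ≥0) ≤ p' := by
    show (2 : ℝ) ≤ 2 * n / (n - 2)
    rw [le_div_iff₀ h2n]; linarith
  have hp'0 : (p' : ℝ≥0∞) ≠ 0 := by
    have : 0 < p' := lt_of_lt_of_le two_pos hp'2
    exact_mod_cast this.ne'
  have hex : 0 ≤ 1 / (2 : ℝ≥0∞).toReal - 1 / (p' : ℝ≥0∞).toReal := by
    have : (2 : ℝ) ≤ p' := hp'2
    simp only [ENNReal.toReal_ofNat, ENNReal.coe_toReal, sub_nonneg]
    gcongr
  refine ⟨K ^ (1 / (p' : ℝ≥0∞)).toReal *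
    (eLpNormLESNormFDerivOfEqInnerConst (volume : Measure (E n)) (2 : ℝ≥0) *
      (ENNReal.ofReal L * K ^ (1 / (2 : ℝ≥0∞)).toReal)) *
    ENNReal.ofReal vol ^ (1 / (2 : ℝ≥0∞).toReal - 1 / (p' : ℝ≥0∞).toReal), ?_,
    fun v hv hc Ω hΩ => ?_⟩
  · exact ENNReal.mul_ne_top (ENNReal.mul_ne_top
      (ENNReal.rpow_ne_top_of_nonneg ENNReal.toReal_nonneg hK) (ENNReal.mul_ne_top
        ENNReal.coe_ne_top (ENNReal.mul_ne_top ENNReal.ofReal_ne_top
          (ENNReal.rpow_ne_top_of_nonneg ENNReal.toReal_nonneg hK))))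
      (ENNReal.rpow_ne_top_of_nonneg hex ENNReal.ofReal_ne_top)
  have s1 := eLpNorm_le_eLpNorm_mul_rpow_measure_univ (μ := (nu g).restrict Ω) (f := v)
    (p := 2) (q := p') (by exact_mod_cast hp'2) hv.continuous.aestronglyMeasurable
  rw [Measure.restrict_apply_univ] at s1
  have s2 : eLpNorm v p' ((nu g).restrict Ω) ≤ K ^ (1 / (p' : ℝ≥0∞)).toReal * eLpNorm v p' volume :=
    (eLpNorm_mono_measure _ (Measure.restrict_le_self.trans h1)).trans
      (le_of_eq (eLpNorm_smul_measure_of_ne_top ENNReal.coe_ne_top _ _))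
  have s3 := eLpNorm_le_eLpNorm_fderiv_of_eq_inner (volume : Measure (E n)) hv hc (p := 2)
    (p' := p') one_le_two (by rw [finrank_euclideanSpace_fin]; omega) (by
      rw [finrank_euclideanSpace_fin]
      show (2 * n / (n - 2) : ℝ)⁻¹ = _
      push_cast
      field_simp)
  have s4 : eLpNorm (fderiv ℝ v) 2 volume ≤ ENNReal.ofReal L * eLpNorm (fgrad F v) 2 volume :=
    eLpNorm_le_mul_eLpNorm_of_ae_le_mul (.of_forall fun x => (hL v x).2) 2
  have s5 : eLpNorm (fgrad F v) 2 volume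
      ≤ K ^ (1 / (2 : ℝ≥0∞)).toReal * eLpNorm (fgrad F v) 2 (nu g) :=
    (eLpNorm_mono_measure _ h2).trans
      (le_of_eq (eLpNorm_smul_measure_of_ne_top ENNReal.ofNat_ne_top _ _))
  calc _ ≤ _ := s1
    _ ≤ K ^ (1 / (p' : ℝ≥0∞)).toReal *
        (eLpNormLESNormFDerivOfEqInnerConst (volume : Measure (E n)) (2 : ℝ≥0) *
          (ENNReal.ofReal L * (K ^ (1 / (2 : ℝ≥0∞)).toReal * eLpNorm (fgrad F v) 2 (nu g)))) *
        ENNReal.ofReal vol ^ (1 / (2 : ℝ≥0∞).toReal - 1 / (p' : ℝ≥0∞).toReal) := by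
        gcongr
        refine s2.trans ?_
        gcongr
        refine s3.trans ?_
        gcongr
        refine s4.trans ?_
        gcongr
    _ = _ := by ring

theorem sob : SobStmt := by
  intro n hn g F h vol
  obtain ⟨C, hC, hs⟩ := sob_cc hn h vol
  refine ⟨C.toReal ^ 2, by positivity, fun z G Ω hz _ hΩ => ?_⟩
  obtain ⟨v, M, v1, v2, -, v4, v5⟩ := hz.approx
  have m := fun j => h.memLp_fgrad (v1 j) (v2 j) 2
  have hl : Tendsto (fun j => eLpNorm (fgrad F (v j)) 2 (nu g)) atTop (𝓝 (eLpNorm G 2 (nu g))) := by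
    have := (L2T.tendsto_toLp v5 m hz.memG).enorm
    simpa only [Lp.enorm_toLp] using this
  have h1 : eLpNorm z 2 ((nu g).restrict Ω) ≤ C * eLpNorm G 2 (nu g) := by
    refine (Lp.eLpNorm_lim_le_liminf_eLpNorm (f := v)
      (fun j => (v1 j).continuous.aestronglyMeasurable) z
      (ae_restrict_of_ae (v4.mono fun x hx => by simpa using hx))).trans ?_
    rw [← (ENNReal.Tendsto.const_mul hl (Or.inr hC)).liminf_eq]
    exact liminf_le_liminf (.of_forall fun j => hs _ (v1 j) (v2 j) Ω hΩ)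
  have hfin : C * eLpNorm G 2 (nu g) ≠ ∞ := ENNReal.mul_ne_top hC hz.memG.2.ne
  have mz : MemLp z 2 ((nu g).restrict Ω) :=
    ⟨hz.meas.aestronglyMeasurable, h1.trans_lt hfin.lt_top⟩
  have e1 := L2T.norm_toLp_sq mz
  have e2 := L2T.norm_toLp_sq hz.memG
  simp only [Real.norm_eq_abs, sq_abs] at e1
  rw [← e1, ← e2, Lp.norm_toLp, Lp.norm_toLp, ← mul_pow, ← ENNReal.toReal_mul]
  exact pow_le_pow_left₀ ENNReal.toReal_nonneg (ENNReal.toReal_mono hfin h1) 2

end Crest.Agent.N346.P2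
end
end

-- ▼ part N346/Sp/Avg
section

/-!
# Row 346, spinor layer: mollifiers, the Schur test and closure of graphs.
-/

set_option autoImplicit false
open MeasureTheory Filter Topology Metric
open scoped ContDiff InnerProductSpace ENNReal Convolution

noncomputable section

namespace Crest.Agent.N346.Sp

variable {n : ℕ}

/-- A mollifier of radius `r` with commutator constant `C`. -/
structure Moll (ρ : E n → ℝ) (r C : ℝ) : Prop where
  smooth : ContDiff ℝ ∞ ρ
  nonneg : ∀ x, 0 ≤ ρ x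
  one : ∫ x, ρ x = 1
  supp : ∀ z, ρ z ≠ 0 → ‖z‖ < r
  comm : ∫ z, ‖fderiv ℝ ρ z‖ * ‖z‖ ≤ C

theorem Moll.cpt {ρ : E n → ℝ} {r C : ℝ} (h : Moll ρ r C) : HasCompactSupport ρ :=
  .intro (isCompact_closedBall 0 r) fun z hz => by
    by_contra h0
    exact hz (by simpa using (h.supp z h0).le)


theorem exists_moll (n : ℕ) : ∃ C : ℝ, 0 < C ∧ ∀ r : ℝ, 0 < r → ∃ ρ : E n → ℝ, Moll ρ r C := by
  let b : ContDiffBump (0 : E n) := ⟨1 / 2, 1, by norm_num, by norm_num⟩
  let ρ : E n → ℝ := b.normed volume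
  have hs : ContDiff ℝ ∞ ρ := b.contDiff_normed
  refine ⟨|∫ z, ‖fderiv ℝ ρ z‖ * ‖z‖| + 1, by positivity, fun r hr => ?_⟩
  have hk : 0 < r ^ Module.finrank ℝ (E n) := pow_pos hr _
  refine ⟨fun z => (r ^ Module.finrank ℝ (E n))⁻¹ * ρ (r⁻¹ • z), ?_, ?_, ?_, ?_, ?_⟩
  · exact contDiff_const.mul (hs.comp (contDiff_id.const_smul _))
  · exact fun x => mul_nonneg (inv_nonneg.2 hk.le) (b.nonneg_normed _)
  · rw [integral_const_mul, Measure.integral_comp_inv_smul_of_nonneg volume ρ hr.le,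
      b.integral_normed, smul_eq_mul, mul_one, inv_mul_cancel₀ hk.ne']
  · intro z hz
    have h1 : r⁻¹ • z ∈ Function.support ρ := right_ne_zero_of_mul hz
    rw [b.support_normed_eq, mem_ball_zero_iff, norm_smul, norm_inv, Real.norm_of_nonneg hr.le,
      inv_mul_lt_iff₀ hr] at h1
    simpa [b] using h1
  · have h1 : ∀ z : E n, ‖fderiv ℝ (fun z => (r ^ Module.finrank ℝ (E n))⁻¹ * ρ (r⁻¹ • z)) z‖ * ‖z‖
        = (r ^ Module.finrank ℝ (E n))⁻¹ * (‖fderiv ℝ ρ (r⁻¹ • z)‖ * ‖r⁻¹ • z‖) := fun z => by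
      have h2 : HasFDerivAt (fun z : E n => (r ^ Module.finrank ℝ (E n))⁻¹ * ρ (r⁻¹ • z))
          ((r ^ Module.finrank ℝ (E n))⁻¹ • r⁻¹ • fderiv ℝ ρ (r⁻¹ • z)) z := by
        have h3 := ((hs.differentiable (by simp) (r⁻¹ • z)).hasFDerivAt.comp z
          ((hasFDerivAt_id z).const_smul r⁻¹)).const_mul (r ^ Module.finrank ℝ (E n))⁻¹
        exact h3.congr_fderiv (by ext w; simp)
      rw [h2.fderiv, norm_smul, norm_smul, norm_smul, Real.norm_of_nonneg (inv_nonneg.2 hk.le)]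
      ring
    simp_rw [h1]
    rw [integral_const_mul, Measure.integral_comp_inv_smul_of_nonneg volume
      (fun w => ‖fderiv ℝ ρ w‖ * ‖w‖) hr.le, smul_eq_mul, ← mul_assoc, inv_mul_cancel₀ hk.ne',
      one_mul]
    linarith [le_abs_self (∫ z, ‖fderiv ℝ ρ z‖ * ‖z‖)]

/-- bounded continuous kernel times integrable function -/
theorem integrable_ker {F : Type*} [NormedAddCommGroup F] [NormedSpace ℝ F] {κ : E n → ℝ}
    (hκ : Continuous κ) (hc : HasCompactSupport κ) {u : E n → F} (hu : Integrable u) (x : E n) :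
    Integrable fun y => κ (x - y) • u y := by
  obtain ⟨B, hB⟩ := hκ.bounded_above_of_compact_support hc
  refine (hu.norm.const_mul B).mono' (((hκ.comp (continuous_const.sub
    continuous_id)).aestronglyMeasurable).smul hu.1) (ae_of_all _ fun y => ?_)
  rw [norm_smul]
  exact mul_le_mul_of_nonneg_right (hB _) (norm_nonneg _)

/-- Schur test. -/
theorem schur {κ : E n → ℝ} (hκ : Continuous κ) (hc : HasCompactSupport κ) (h0 : ∀ z, 0 ≤ κ z)
    {C : ℝ} (hC : 0 < C) (h1 : ∫ z, κ z ≤ C) {f : E n → ℝ} (hf : Integrable f)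
    (hf2 : Integrable fun y => f y ^ 2) {G : E n → ℝ} {B : ℝ} (hB : 0 ≤ B) (hG0 : ∀ x, 0 ≤ G x)
    (hG : ∀ x, G x ≤ B * (∫ y, κ (x - y) * f y) ^ 2) : ∫ x, G x ≤ B * C ^ 2 * ∫ y, f y ^ 2 := by
  have hi : Integrable κ := hκ.integrable_of_hasCompactSupport hc
  have key : ∀ x, (∫ y, κ (x - y) * f y) ^ 2 ≤ C * ∫ y, f y ^ 2 * κ (x - y) := fun x => by
    set I := ∫ y, κ (x - y) * f y with hI
    have i1 : Integrable fun y => κ (x - y) * f y := integrable_ker hκ hc hf x
    have i2 : Integrable fun y => f y ^ 2 * κ (x - y) := by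
      simpa [mul_comm] using integrable_ker hκ hc hf2 x
    have i3 : Integrable fun y => κ (x - y) := hi.comp_sub_left x
    have e3 : ∫ y, κ (x - y) = ∫ z, κ z := integral_sub_left_eq_self κ volume x
    have h2 : ∫ y, 2 * C * I * (κ (x - y) * f y) ≤
        ∫ y, (C ^ 2 * (f y ^ 2 * κ (x - y)) + I ^ 2 * κ (x - y)) :=
      integral_mono (i1.const_mul _) ((i2.const_mul _).add (i3.const_mul _)) fun y => by
        have := mul_nonneg (h0 (x - y)) (sq_nonneg (C * f y - I))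
        simp only
        nlinarith
    rw [integral_const_mul, integral_add (i2.const_mul _) (i3.const_mul _), integral_const_mul,
      integral_const_mul, e3, ← hI] at h2
    have h3 := mul_le_mul_of_nonneg_left h1 (sq_nonneg I)
    refine le_of_mul_le_mul_left ?_ hC
    nlinarith
  have i4 := hf2.integrable_convolution (ContinuousLinearMap.mul ℝ ℝ) hi
  have e4 := integral_convolution (ContinuousLinearMap.mul ℝ ℝ) hf2 hi
  calc ∫ x, G x ≤ ∫ x, B * C * ((fun y => f y ^ 2) ⋆[ContinuousLinearMap.mul ℝ ℝ, volume] κ) x :=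
        integral_mono_of_nonneg (ae_of_all _ hG0) (i4.const_mul _) (ae_of_all _ fun x =>
          (hG x).trans ((mul_le_mul_of_nonneg_left (key x) hB).trans_eq (mul_assoc _ _ _).symm))
    _ = B * C * ((∫ y, f y ^ 2) * ∫ z, κ z) := by rw [integral_const_mul, e4]; rfl
    _ ≤ B * C * ((∫ y, f y ^ 2) * C) := by
        gcongr
    _ = _ := by ring

section
variable {S : Type} [NormedAddCommGroup S] [InnerProductSpace ℝ S] [FiniteDimensional ℝ S]

/-- mollification -/
def mol (ρ : E n → ℝ) (u : E n → S) (x : E n) : S := ∫ y, ρ (x - y) • u y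

omit [FiniteDimensional ℝ S] in
theorem mol_eq (ρ : E n → ℝ) (u : E n → S) :
    mol ρ u = u ⋆[(ContinuousLinearMap.lsmul ℝ ℝ).flip, volume] ρ := rfl

variable {ρ : E n → ℝ} {r C : ℝ} {u : E n → S}

omit [FiniteDimensional ℝ S] in
theorem Moll.contDiff_mol (h : Moll ρ r C) (hu : Integrable u) : ContDiff ℝ ∞ (mol ρ u) := by
  rw [mol_eq]
  exact h.cpt.contDiff_convolution_right _ hu.locallyIntegrable h.smooth

omit [FiniteDimensional ℝ S] in
theorem Moll.fderiv_mol (h : Moll ρ r C) (hu : Integrable u) (x w : E n) :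
    fderiv ℝ (mol ρ u) x w = ∫ y, fderiv ℝ ρ (x - y) w • u y := by
  rw [mol_eq, (h.cpt.hasFDerivAt_convolution_right _ hu.locallyIntegrable
    (h.smooth.of_le (by simp)) x).fderiv, convolution_precompR_apply _ hu.locallyIntegrable
    (h.cpt.fderiv ℝ) (h.smooth.continuous_fderiv (by simp))]
  rfl

omit [FiniteDimensional ℝ S] in
theorem Moll.mol_zero (h : Moll ρ r C) {R : ℝ} (hu : ∀ y, R < ‖y‖ → u y = 0) (x : E n)
    (hx : R + r < ‖x‖) : mol ρ u x = 0 := by
  have : ∀ y, ρ (x - y) • u y = 0 := fun y => by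
    by_cases h1 : ρ (x - y) = 0
    · simp [h1]
    · have h2 := h.supp _ h1
      have h3 : ‖x‖ ≤ ‖x - y‖ + ‖y‖ := by simpa using norm_add_le (x - y) y
      simp [hu y (by linarith)]
  simp [mol, this]

omit [FiniteDimensional ℝ S] in
theorem Moll.norm_mol (h : Moll ρ r C) (x : E n) : ‖mol ρ u x‖ ≤ ∫ y, ρ (x - y) * ‖u y‖ := by
  refine (norm_integral_le_integral_norm _).trans_eq ?_
  simp_rw [norm_smul, Real.norm_of_nonneg (h.nonneg _)]

theorem tendsto_pair {ρ : ℕ → E n → ℝ} (h : ∀ j, Moll (ρ j) (1 / ((j : ℝ) + 1)) C)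
    (hu : Integrable u) {F : E n → S} (hF : Continuous F) (hc : HasCompactSupport F) :
    Tendsto (fun j => ∫ x, ⟪F x, mol (ρ j) u x⟫_ℝ) atTop (𝓝 (∫ x, ⟪F x, u x⟫_ℝ)) := by
  have hFi : Integrable F := hF.integrable_of_hasCompactSupport hc
  obtain ⟨B, hB⟩ := hF.bounded_above_of_compact_support hc
  have iF : ∀ j y, Integrable fun x => ρ j (x - y) • F x := fun j y =>
    (((h j).smooth.continuous.comp (continuous_id.sub continuous_const)).smul
      hF).integrable_of_hasCompactSupport hc.smul_left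
  have e1 : ∀ j, ∫ x, ⟪F x, mol (ρ j) u x⟫_ℝ = ∫ y, ⟪∫ x, ρ j (x - y) • F x, u y⟫_ℝ := fun j => by
    obtain ⟨A, hA⟩ := (h j).smooth.continuous.bounded_above_of_compact_support (h j).cpt
    have i1 : Integrable (Function.uncurry fun x y => ρ j (x - y) * ⟪F x, u y⟫_ℝ)
        (volume.prod volume) := by
      refine ((hFi.norm.mul_prod hu.norm).const_mul A).mono'
        ((((h j).smooth.continuous.comp (continuous_fst.sub continuous_snd)).aestronglyMeasurable).mul
          ((hF.comp continuous_fst).aestronglyMeasurable.inner hu.1.comp_snd))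
        (ae_of_all _ fun p => ?_)
      rw [Function.uncurry, norm_mul]
      exact mul_le_mul (hA _) (norm_inner_le_norm _ _) (norm_nonneg _)
        ((norm_nonneg _).trans (hA 0))
    calc ∫ x, ⟪F x, mol (ρ j) u x⟫_ℝ = ∫ x, ∫ y, ρ j (x - y) * ⟪F x, u y⟫_ℝ := by
          refine integral_congr_ae (ae_of_all _ fun x => ?_)
          simp only [mol]
          rw [← integral_inner (integrable_ker (h j).smooth.continuous (h j).cpt hu x)]
          simp_rw [real_inner_smul_right]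
      _ = ∫ y, ∫ x, ρ j (x - y) * ⟪F x, u y⟫_ℝ := integral_integral_swap i1
      _ = _ := by
          refine integral_congr_ae (ae_of_all _ fun y => ?_)
          simp only
          rw [real_inner_comm, ← integral_inner (iF j y)]
          simp_rw [real_inner_smul_right, real_inner_comm]
  simp_rw [e1]
  refine tendsto_integral_of_dominated_convergence (fun y => B * ‖u y‖) (fun j => ?_)
    (hu.norm.const_mul B) (fun j => ae_of_all _ fun y => ?_) (ae_of_all _ fun y => ?_)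
  · refine AEStronglyMeasurable.inner ?_ hu.1
    exact (((h j).smooth.continuous.comp (continuous_snd.sub continuous_fst)).smul
      (hF.comp continuous_snd)).aestronglyMeasurable.integral_prod_right'
  · refine (norm_inner_le_norm _ _).trans (mul_le_mul_of_nonneg_right ?_ (norm_nonneg _))
    have i2 : Integrable fun x => ρ j (x - y) :=
      ((h j).smooth.continuous.integrable_of_hasCompactSupport (h j).cpt).comp_sub_right y
    refine (norm_integral_le_of_norm_le (i2.mul_const B) (ae_of_all _ fun x => ?_)).trans_eq ?_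
    · rw [norm_smul, Real.norm_of_nonneg ((h j).nonneg _)]
      exact mul_le_mul_of_nonneg_left (hB x) ((h j).nonneg _)
    · rw [integral_mul_const, integral_sub_right_eq_self, (h j).one, one_mul]
  · refine Tendsto.inner ?_ tendsto_const_nhds
    have hg : Continuous fun t => F (y - t) := hF.comp (continuous_const.sub continuous_id)
    have := convolution_tendsto_right (μ := (volume : Measure (E n))) (l := atTop) (φ := ρ)
      (g := fun _ t => F (y - t)) (x₀ := 0) (z₀ := F y) (k := fun _ => 0)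
      (.of_forall fun j => (h j).nonneg) (.of_forall fun j => (h j).one) ?_
      (.of_forall fun _ => hg.aestronglyMeasurable) ?_ tendsto_const_nhds
    · refine this.congr fun j => ?_
      rw [convolution_lsmul, ← integral_sub_right_eq_self _ y]
      simp
    · rw [tendsto_smallSets_iff]
      intro t ht
      obtain ⟨ε, hε, hεt⟩ := Metric.mem_nhds_iff.1 ht
      filter_upwards [(tendsto_one_div_add_atTop_nhds_zero_nat (𝕜 := ℝ)).eventually
        (gt_mem_nhds hε)] with j hj z hz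
      exact hεt (mem_ball_zero_iff.2 (((h j).supp z hz).trans hj))
    · have := (hg.tendsto 0).comp (tendsto_snd (f := (atTop : Filter ℕ)))
      rw [sub_zero] at this
      exact this

end

/-- bounded sequences converging weakly on a dense set converge weakly -/
theorem weak_of_dense {H : Type*} [NormedAddCommGroup H] [InnerProductSpace ℝ H] {s : Set H}
    (hs : Dense s) {x : ℕ → H} {C : ℝ} (hC : ∀ j, ‖x j‖ ≤ C) {z : H}
    (h : ∀ ψ ∈ s, Tendsto (fun j => ⟪ψ, x j⟫_ℝ) atTop (𝓝 ⟪ψ, z⟫_ℝ)) (ψ : H) :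
    Tendsto (fun j => ⟪ψ, x j⟫_ℝ) atTop (𝓝 ⟪ψ, z⟫_ℝ) := by
  have hC0 : 0 ≤ C := (norm_nonneg _).trans (hC 0)
  have he : UniformEquicontinuous fun j (ψ : H) => ⟪ψ, x j⟫_ℝ :=
    LipschitzWith.uniformEquicontinuous _ ⟨C, hC0⟩ fun j => LipschitzWith.of_dist_le_mul fun a b => by
      rw [dist_eq_norm, dist_eq_norm, ← inner_sub_left, mul_comm]
      exact (norm_inner_le_norm _ _).trans (mul_le_mul_of_nonneg_left (hC j) (norm_nonneg _))
  have hcl := he.equicontinuous.isClosed_setOfPred_tendsto (l := atTop) (f := fun ψ => ⟪ψ, z⟫_ℝ)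
    (by fun_prop)
  exact closure_minimal (t := {ψ | Tendsto (fun j => ⟪ψ, x j⟫_ℝ) atTop (𝓝 ⟪ψ, z⟫_ℝ)}) h hcl (hs ψ)

section
variable {S : Type} [NormedAddCommGroup S] [InnerProductSpace ℝ S] [FiniteDimensional ℝ S]
  {μ : Measure (E n)}

omit [FiniteDimensional ℝ S] in
theorem inner_toLp {f g : E n → S} (hf : MemLp f 2 μ) (hg : MemLp g 2 μ) :
    ⟪hf.toLp f, hg.toLp g⟫_ℝ = ∫ x, ⟪f x, g x⟫_ℝ ∂μ := by
  rw [L2.inner_def]
  refine integral_congr_ae ?_
  filter_upwards [hf.coeFn_toLp, hg.coeFn_toLp] with x h1 h2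
  rw [h1, h2]

omit [FiniteDimensional ℝ S] in
theorem norm_toLp_sq {f : E n → S} (hf : MemLp f 2 μ) : ‖hf.toLp f‖ ^ 2 = ∫ x, ‖f x‖ ^ 2 ∂μ := by
  rw [← real_inner_self_eq_norm_sq, inner_toLp]
  simp_rw [real_inner_self_eq_norm_sq]

omit [FiniteDimensional ℝ S] in
theorem Tst.add {ξ ζ : E n → S} (h : Tst ξ) (h' : Tst ζ) : Tst (ξ + ζ) :=
  ⟨h.1.add h'.1, h.2.add h'.2⟩

omit [FiniteDimensional ℝ S] in
theorem Tst.smul {f : E n → ℝ} (hf : ContDiff ℝ ∞ f) {ξ : E n → S} (h : Tst ξ) :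
    Tst fun x => f x • ξ x := ⟨hf.smul h.1, h.2.smul_left⟩

omit [FiniteDimensional ℝ S] in
theorem Tst.memLp [IsFiniteMeasureOnCompacts μ] {ξ : E n → S} (h : Tst ξ) : MemLp ξ 2 μ :=
  h.1.continuous.memLp_of_hasCompactSupport h.2

omit [FiniteDimensional ℝ S] in
theorem weak_L2 [IsFiniteMeasureOnCompacts μ] {f : ℕ → E n → S} (hf : ∀ j, MemLp (f j) 2 μ)
    {u : E n → S} (hu : MemLp u 2 μ) {C : ℝ} (h1 : ∀ j, ∫ x, ‖f j x‖ ^ 2 ∂μ ≤ C)
    (t1 : ∀ ψ, Tst ψ → Tendsto (fun j => ∫ x, ⟪ψ x, f j x⟫_ℝ ∂μ) atTop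
      (𝓝 (∫ x, ⟪ψ x, u x⟫_ℝ ∂μ))) (φ : Lp S 2 μ) :
    Tendsto (fun j => ⟪φ, (hf j).toLp (f j)⟫_ℝ) atTop (𝓝 ⟪φ, hu.toLp u⟫_ℝ) := by
  refine weak_of_dense (Lp.dense_hasCompactSupport_contDiff (p := 2) (μ := μ) (F := S) (by simp))
    (C := Real.sqrt C) (fun j => Real.le_sqrt_of_sq_le (by rw [norm_toLp_sq]; exact h1 j)) ?_ φ
  rintro ψ ⟨ψ', h2, h3, h4⟩
  have ht : Tst ψ' := ⟨h4, h3⟩
  have : ψ = ht.memLp.toLp ψ' := Lp.ext (h2.trans ht.memLp.coeFn_toLp.symm)
  simp_rw [this, inner_toLp]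
  exact t1 ψ' ht

/-- a weak limit of a bounded sequence in the graph is a strong limit of points of the graph -/
theorem graph_approx [IsFiniteMeasureOnCompacts μ] (D : (E n → S) → E n → S)
    (hD : ∀ ξ, Tst ξ → MemLp (D ξ) 2 μ)
    (hadd : ∀ ξ ζ, Tst ξ → Tst ζ → D (ξ + ζ) = D ξ + D ζ)
    (hsmul : ∀ (t : ℝ) ξ, Tst ξ → D (t • ξ) = t • D ξ)
    {u k : E n → S} (hu : MemLp u 2 μ) (hk : MemLp k 2 μ) {ξ : ℕ → E n → S} (hξ : ∀ j, Tst (ξ j))
    {C₁ C₂ : ℝ} (h1 : ∀ j, ∫ x, ‖ξ j x‖ ^ 2 ∂μ ≤ C₁) (h2 : ∀ j, ∫ x, ‖D (ξ j) x‖ ^ 2 ∂μ ≤ C₂)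
    (t1 : ∀ ψ, Tst ψ → Tendsto (fun j => ∫ x, ⟪ψ x, ξ j x⟫_ℝ ∂μ) atTop
      (𝓝 (∫ x, ⟪ψ x, u x⟫_ℝ ∂μ)))
    (t2 : ∀ ψ, Tst ψ → Tendsto (fun j => ∫ x, ⟪ψ x, D (ξ j) x⟫_ℝ ∂μ) atTop
      (𝓝 (∫ x, ⟪ψ x, k x⟫_ℝ ∂μ))) {δ : ℝ} (hδ : 0 < δ) :
    ∃ ζ, Tst ζ ∧ ∫ x, ‖ζ x - u x‖ ^ 2 ∂μ ≤ δ ∧ ∫ x, ‖D ζ x - k x‖ ^ 2 ∂μ ≤ δ := by
  let P : ∀ ζ, Tst ζ → WithLp 2 (Lp S 2 μ × Lp S 2 μ) := fun ζ h =>
    WithLp.toLp 2 (h.memLp.toLp ζ, (hD ζ h).toLp (D ζ))
  have h0 : Tst (0 : E n → S) := ⟨contDiff_const, HasCompactSupport.zero⟩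
  let G : Submodule ℝ (WithLp 2 (Lp S 2 μ × Lp S 2 μ)) :=
    { carrier := {p | ∃ ζ h, p = P ζ h}
      add_mem' := by
        rintro _ _ ⟨a, ha, rfl⟩ ⟨b, hb, rfl⟩
        refine ⟨a + b, ha.add hb, ?_⟩
        simp only [P, ← WithLp.toLp_add, Prod.mk_add_mk, hadd a b ha hb, ← MemLp.toLp_add]
      zero_mem' := by
        refine ⟨0, h0, ?_⟩
        have : D 0 = 0 := by simpa using hsmul 0 0 h0
        simp only [P, this, MemLp.toLp_zero]
        rfl
      smul_mem' := by
        rintro t _ ⟨a, ha, rfl⟩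
        refine ⟨t • a, ha.smul contDiff_const, ?_⟩
        simp only [P, ← WithLp.toLp_smul, Prod.smul_mk, hsmul t a ha, ← MemLp.toLp_const_smul] }
  have hmem : WithLp.toLp 2 (hu.toLp u, hk.toLp k) ∈ G.topologicalClosure := by
    rw [← Submodule.orthogonal_orthogonal_eq_closure, Submodule.mem_orthogonal]
    intro p hp
    have a1 := (weak_L2 (fun j => (hξ j).memLp) hu h1 t1 p.fst).add
      (weak_L2 (fun j => hD _ (hξ j)) hk h2 t2 p.snd)
    have a2 : ∀ j, ⟪p, P _ (hξ j)⟫_ℝ = 0 := fun j =>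
      (Submodule.mem_orthogonal' _ _).1 hp _ ⟨_, hξ j, rfl⟩
    simp only [WithLp.prod_inner_apply, P] at a2 ⊢
    exact tendsto_nhds_unique a1 (tendsto_const_nhds.congr fun j => (a2 j).symm)
  obtain ⟨_, ⟨ζ, hζ, rfl⟩, hd⟩ := Metric.mem_closure_iff.1
    (show WithLp.toLp 2 (hu.toLp u, hk.toLp k) ∈ closure (G : Set (WithLp 2 (Lp S 2 μ × Lp S 2 μ)))
      from hmem) (Real.sqrt δ) (Real.sqrt_pos.2 hδ)
  rw [dist_comm, dist_eq_norm, Real.lt_sqrt (norm_nonneg _), WithLp.prod_norm_sq_eq_of_L2] at hd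
  have b1 := norm_toLp_sq (hζ.memLp.sub hu)
  have b2 := norm_toLp_sq ((hD ζ hζ).sub hk)
  rw [MemLp.toLp_sub hζ.memLp hu] at b1
  rw [MemLp.toLp_sub (hD ζ hζ) hk] at b2
  change ‖hζ.memLp.toLp ζ - hu.toLp u‖ ^ 2 + ‖(hD ζ hζ).toLp (D ζ) - hk.toLp k‖ ^ 2 < δ at hd
  simp only [Pi.sub_apply] at b1 b2
  refine ⟨ζ, hζ, ?_, ?_⟩
  · rw [← b1]; nlinarith [sq_nonneg ‖(hD ζ hζ).toLp (D ζ) - hk.toLp k‖]
  · rw [← b2]; nlinarith [sq_nonneg ‖hζ.memLp.toLp ζ - hu.toLp u‖]

end

end Crest.Agent.N346.Sp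
end
end

-- ▼ part N346/Sp/Fried

/-!
# Row 346, spinor layer: the Friedrichs lemma (uniform commutator bound + duality).
-/

set_option autoImplicit false
set_option linter.unusedSectionVars false
open MeasureTheory Filter Topology Metric
open scoped ContDiff InnerProductSpace ENNReal
open Crest.GeometryTopology.CoordMetric
open Crest.MathPhysics.ExteriorData
open Crest.Agent.N346.Bs

noncomputable section

namespace Crest.Agent.N346.Sp

variable {n : ℕ} {g : MetricField n}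

namespace Fr

theorem meas_dens (hg : IsRiemannianOn g Set.univ) :
    Measurable fun x => ENNReal.ofReal (volDensity g x) :=
  (contDiff_volDensity hg).continuous.measurable.ennreal_ofReal

theorem integral_nu (hg : IsRiemannianOn g Set.univ) (f : E n → ℝ) :
    ∫ x, f x ∂nu g = ∫ x, volDensity g x * f x := by
  rw [nu, integral_withDensity_eq_integral_toReal_smul (meas_dens hg) (by simp)]
  simp_rw [ENNReal.toReal_ofReal (volDensity_pos hg _).le, smul_eq_mul]

theorem integrable_nu (hg : IsRiemannianOn g Set.univ) (f : E n → ℝ) :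
    Integrable f (nu g) ↔ Integrable fun x => volDensity g x * f x := by
  rw [nu, integrable_withDensity_iff_integrable_smul' (meas_dens hg) (by simp)]
  simp_rw [ENNReal.toReal_ofReal (volDensity_pos hg _).le, smul_eq_mul]

theorem ac_nu (hg : IsRiemannianOn g Set.univ) : volume ≪ nu g :=
  withDensity_absolutelyContinuous' (meas_dens hg).aemeasurable
    (ae_of_all _ fun x => by simpa using volDensity_pos hg x)

theorem locFin (hg : IsRiemannianOn g Set.univ) : IsLocallyFiniteMeasure (nu g) :=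
  IsLocallyFiniteMeasure.withDensity_ofReal (contDiff_volDensity hg).continuous

theorem contDiff_ev (hg : IsRiemannianOn g Set.univ) (a : Fin n) :
    ContDiff ℝ ∞ fun x => ev g x a :=
  contDiff_euclidean.2 fun i => contDiff_frame (contDiff_g hg) (riem_posDef hg) i a

variable {S : Type} [NormedAddCommGroup S] [InnerProductSpace ℝ S] [FiniteDimensional ℝ S]
  {c : Fin n → S →L[ℝ] S} {A : Fin n → E n → S →L[ℝ] S}

theorem memLp_vol (hg : IsRiemannianOn g Set.univ) {u : E n → S} (hu : MemLp u 2 (nu g)) {R : ℝ}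
    (h0 : ∀ y, R < ‖y‖ → u y = 0) : MemLp u 2 volume ∧ Integrable u := by
  have hm : AEStronglyMeasurable u volume := hu.1.mono_ac (ac_nu hg)
  have h1 := (integrable_nu hg _).1 ((memLp_two_iff_integrable_sq_norm hu.1).1 hu)
  obtain ⟨B, hB⟩ := (isCompact_closedBall (0 : E n) R).exists_bound_of_continuousOn
    (((contDiff_volDensity hg).continuous.inv₀ fun x => (volDensity_pos hg x).ne').continuousOn)
  have h2 : MemLp u 2 volume := by
    refine (memLp_two_iff_integrable_sq_norm hm).2 ((h1.const_mul B).mono' (hm.norm.pow 2)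
      (ae_of_all _ fun y => ?_))
    rw [Real.norm_of_nonneg (sq_nonneg _)]
    by_cases hy : R < ‖y‖
    · simp [h0 y hy]
    · have h3 := (le_abs_self _).trans (hB y (by simpa using hy))
      have h4 := volDensity_pos hg y
      calc ‖u y‖ ^ 2 = (volDensity g y)⁻¹ * (volDensity g y * ‖u y‖ ^ 2) := by field_simp
        _ ≤ _ := mul_le_mul_of_nonneg_right h3 (by positivity)
  refine ⟨h2, ?_⟩
  have : IsFiniteMeasure ((volume : Measure (E n)).restrict (closedBall 0 R)) :=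
    isFiniteMeasure_restrict.2 (isCompact_closedBall 0 R).measure_lt_top.ne
  exact IntegrableOn.integrable_of_forall_notMem_eq_zero
    ((h2.restrict (closedBall 0 R)).integrable one_le_two) fun y hy => h0 y (by simpa using hy)

theorem contDiff_dir (hg : IsRiemannianOn g Set.univ) (hd : SpinData g c A) {ξ : E n → S}
    (h : ContDiff ℝ ∞ ξ) : ContDiff ℝ ∞ (dir g c A ξ) :=
  ContDiff.sum fun a _ => (c a).contDiff.comp
    (((h.fderiv_right (m := ∞) (by simp)).clm_apply (contDiff_ev hg a)).add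
      ((hd.A_smooth a).clm_apply h))

theorem dir_of_notMem {ξ : E n → S} {x : E n} (hx : x ∉ tsupport ξ) : dir g c A ξ x = 0 := by
  have h1 : fderiv ℝ ξ x = 0 := by
    by_contra h
    exact hx (support_fderiv_subset ℝ h)
  simp [dir, nab, h1, image_eq_zero_of_notMem_tsupport hx]

theorem tst_dir (hg : IsRiemannianOn g Set.univ) (hd : SpinData g c A) {ξ : E n → S} (h : Tst ξ) :
    Tst (dir g c A ξ) := ⟨contDiff_dir hg hd h.1, .intro h.2.isCompact fun _ => dir_of_notMem⟩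

theorem dir_add {ξ ζ : E n → S} (h : ContDiff ℝ ∞ ξ) (h' : ContDiff ℝ ∞ ζ) :
    dir g c A (ξ + ζ) = dir g c A ξ + dir g c A ζ := by
  funext x
  simp only [dir, nab, fderiv_add (h.differentiable (by simp) x) (h'.differentiable (by simp) x),
    Pi.add_apply, add_apply, map_add, Finset.sum_add_distrib]
  abel

theorem dir_mul {f : E n → ℝ} {ξ : E n → S} {x : E n} (hf : DifferentiableAt ℝ f x)
    (h : DifferentiableAt ℝ ξ x) : dir g c A (fun y => f y • ξ y) x =
      f x • dir g c A ξ x + ∑ a, fderiv ℝ f x (ev g x a) • c a (ξ x) := by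
  simp only [dir, nab, fderiv_fun_smul hf h, add_apply,
    smul_apply, ContinuousLinearMap.smulRight_apply, map_add, map_smul,
    Finset.sum_add_distrib, Finset.smul_sum, smul_add]
  abel

theorem dir_smul (t : ℝ) {ξ : E n → S} (h : ContDiff ℝ ∞ ξ) :
    dir g c A (t • ξ) = t • dir g c A ξ := by
  funext x
  have := dir_mul (g := g) (c := c) (A := A) (differentiableAt_const t)
    (h.differentiable (by simp) x)
  simp only [fderiv_fun_const, Pi.zero_apply, zero_apply, zero_smul, Finset.sum_const_zero,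
    add_zero] at this
  exact this

theorem int_inner {μ : Measure (E n)} {G H : E n → S} (hG : MemLp G 2 μ) (hH : MemLp H 2 μ) :
    Integrable (fun x => ⟪G x, H x⟫_ℝ) μ :=
  (MemLp.integrable_mul hG.norm hH.norm).mono' (hG.1.inner hH.1)
    (ae_of_all _ fun x => norm_inner_le_norm (G x) (H x))

/-- formal self-adjointness, integrated -/
theorem sa_int (hg : IsRiemannianOn g Set.univ) (hd : SpinData g c A) {φ ψ : E n → S}
    (hφ : Tst φ) (hψ : Tst ψ) :
    ∫ x, ⟪φ x, dir g c A ψ x⟫_ℝ ∂nu g = ∫ x, ⟪dir g c A φ x, ψ x⟫_ℝ ∂nu g := by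
  have := locFin hg
  have h1 : ∫ x, dvf g (fun y a => ⟪φ y, c a (ψ y)⟫_ℝ) x = 0 := by
    refine integral_divE (fun i => smooth_one ((contDiff_volDensity hg).mul (ContDiff.sum
      fun a _ => (contDiff_frame (contDiff_g hg) (riem_posDef hg) i a).mul
        (hφ.1.inner ℝ ((c a).contDiff.comp hψ.1))))) fun i => .intro hφ.2.isCompact fun y hy => ?_
    simp [image_eq_zero_of_notMem_tsupport hy]
  simp_rw [hd.sa φ ψ hφ.1 hψ.1] at h1
  rw [← integral_nu hg fun x => ⟪φ x, dir g c A ψ x⟫_ℝ - ⟪dir g c A φ x, ψ x⟫_ℝ, integral_sub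
    (int_inner hφ.memLp (tst_dir hg hd hψ).memLp)
    (int_inner (tst_dir hg hd hφ).memLp hψ.memLp)] at h1
  exact sub_eq_zero.1 h1

theorem inner_c_le (hc : Cl c) (a : Fin n) (v w : S) : |⟪v, c a w⟫_ℝ| ≤ ‖v‖ * ‖w‖ :=
  (abs_real_inner_le_norm _ _).trans_eq (by rw [hc.norm_c])

/-- pointwise commutator bound -/
theorem dir_mol_le (hg : IsRiemannianOn g Set.univ) (hd : SpinData g c A) {u k : E n → S}
    (hu : MemLp u 2 (nu g)) (hk : MemLp k 2 (nu g)) {R : ℝ} (hu0 : ∀ y, R < ‖y‖ → u y = 0)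
    (hk0 : ∀ y, R < ‖y‖ → k y = 0)
    (hw : ∀ ξ, Tst ξ → ∫ x, ⟪u x, dir g c A ξ x⟫_ℝ ∂nu g = ∫ x, ⟪k x, ξ x⟫_ℝ ∂nu g)
    {L B : ℝ} (hL0 : 0 ≤ L) (hB : 1 ≤ B)
    (hL : ∀ x y : E n, ‖x‖ ≤ R + 1 → ‖y‖ ≤ R + 1 → ∀ a, ‖ev g x a - ev g y a‖ ≤ L * ‖x - y‖)
    (hA : ∀ y : E n, ‖y‖ ≤ R + 1 → ∀ a, ‖A a y‖ ≤ B)
    (hs : ∀ y : E n, ‖y‖ ≤ R + 1 → ∀ a,
      |volDensity g y * fderiv ℝ (fun z => (volDensity g z)⁻¹) y (ev g y a)| ≤ B)
    {ρ : E n → ℝ} {r C : ℝ} (h : Moll ρ r C) {x : E n} (hx : ‖x‖ ≤ R + 1) :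
    ‖dir g c A (mol ρ u) x‖ ≤ ∫ y, (n * L * (‖fderiv ℝ ρ (x - y)‖ * ‖x - y‖)
      + (3 * n + 1) * B * ρ (x - y)) * (‖u y‖ + ‖k y‖) := by
  have := locFin hg
  have hui := (memLp_vol hg hu hu0).2
  have hki := (memLp_vol hg hk hk0).2
  set v := dir g c A (mol ρ u) x with hv
  have hsi : ContDiff ℝ ∞ fun z => (volDensity g z)⁻¹ :=
    (contDiff_volDensity hg).inv fun z => (volDensity_pos hg z).ne'
  have hρx : ContDiff ℝ ∞ fun y => ρ (x - y) := h.smooth.comp (contDiff_const.sub contDiff_id)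
  have hτ : Tst fun y => (ρ (x - y) * (volDensity g y)⁻¹) • v :=
    ⟨(hρx.mul hsi).smul contDiff_const, .intro (isCompact_closedBall x r) fun y hy => by
      have : ρ (x - y) = 0 := by
        by_contra h0
        exact hy (mem_closedBall'.2 (by rw [dist_eq_norm]; exact (h.supp _ h0).le))
      simp [this]⟩
  have i2 := (integrable_nu hg _).1 (int_inner hu (tst_dir hg hd hτ).memLp)
  have i3 := (integrable_nu hg _).1 (int_inner hk hτ.memLp)
  have e2 := hw _ hτ
  rw [integral_nu hg, integral_nu hg] at e2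
  have hdc : Continuous (fderiv ℝ ρ) := h.smooth.continuous_fderiv (by simp)
  have j1 : ∀ w, Integrable fun y => fderiv ℝ ρ (x - y) w • u y := fun w =>
    integrable_ker (κ := fun z => fderiv ℝ ρ z w) (hdc.clm_apply continuous_const)
      (h.cpt.fderiv_apply ℝ w) hui x
  have j2 : Integrable fun y => ρ (x - y) • u y := integrable_ker h.smooth.continuous h.cpt hui x
  have j3 : ∀ a, Integrable fun y => fderiv ℝ ρ (x - y) (ev g x a) • u y
      + A a x (ρ (x - y) • u y) := fun a => (j1 _).add ((A a x).integrable_comp j2)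
  have j4 : Integrable fun y => ∑ a, c a (fderiv ℝ ρ (x - y) (ev g x a) • u y
      + A a x (ρ (x - y) • u y)) := integrable_finsetSum _ fun a _ => (c a).integrable_comp (j3 a)
  have e1 : ∫ y, ∑ a, c a (fderiv ℝ ρ (x - y) (ev g x a) • u y + A a x (ρ (x - y) • u y)) = v := by
    rw [integral_finsetSum _ fun a _ => (c a).integrable_comp (j3 a)]
    refine Finset.sum_congr rfl fun a _ => ?_
    rw [(c a).integral_comp_comm (j3 a), integral_add (j1 _) ((A a x).integrable_comp j2),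
      (A a x).integral_comp_comm j2, nab, h.fderiv_mol hui]
    rfl
  have hκc : Continuous fun z : E n =>
      n * L * (‖fderiv ℝ ρ z‖ * ‖z‖) + (3 * n + 1) * B * ρ z := by
    have := h.smooth.continuous
    fun_prop
  have hκs : HasCompactSupport fun z : E n =>
      n * L * (‖fderiv ℝ ρ z‖ * ‖z‖) + (3 * n + 1) * B * ρ z :=
    ((h.cpt.fderiv ℝ).norm.mul_right.mul_left).add h.cpt.mul_left
  have j5 := integrable_ker hκc hκs (hui.norm.add hki.norm) x
  simp only [smul_eq_mul, Pi.add_apply] at j5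
  have hB0 : 0 ≤ B := zero_le_one.trans hB
  have hκ0 : ∀ y, 0 ≤ (n * L * (‖fderiv ℝ ρ (x - y)‖ * ‖x - y‖)
      + (3 * n + 1) * B * ρ (x - y)) * (‖u y‖ + ‖k y‖) := fun y => by
    have := h.nonneg (x - y)
    positivity
  have main : ‖v‖ * ‖v‖ ≤ ‖v‖ * ∫ y, (n * L * (‖fderiv ℝ ρ (x - y)‖ * ‖x - y‖)
      + (3 * n + 1) * B * ρ (x - y)) * (‖u y‖ + ‖k y‖) := by
    have j6 := j4.const_inner (𝕜 := ℝ) v
    have e3 := integral_inner (𝕜 := ℝ) j4 v
    rw [e1, real_inner_self_eq_norm_mul_norm] at e3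
    refine (fun hm => ?_ : _ → _) (integral_mono (j6.add i3) (i2.add (j5.const_mul ‖v‖)) fun y => ?_)
    · rw [integral_add' j6 i3, integral_add' i2 (j5.const_mul _), e3, integral_const_mul, e2] at hm
      linarith
    by_cases hy : R < ‖y‖
    · simp [hu0 y hy, hk0 y hy]
    have hy1 : ‖y‖ ≤ R + 1 := by linarith [not_lt.1 hy]
    have hsp := volDensity_pos hg y
    have hfd : ∀ w, fderiv ℝ (fun y => ρ (x - y) * (volDensity g y)⁻¹) y w =
        ρ (x - y) * fderiv ℝ (fun z => (volDensity g z)⁻¹) y w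
          - (volDensity g y)⁻¹ * fderiv ℝ ρ (x - y) w := fun w => by
      have h1 : HasFDerivAt (fun y => ρ (x - y)) (-fderiv ℝ ρ (x - y)) y :=
        ((h.smooth.differentiable (by simp) (x - y)).hasFDerivAt.comp y
          ((hasFDerivAt_id y).const_sub x)).congr_fderiv (by ext w; simp)
      rw [(h1.fun_mul (hsi.differentiable (by simp) y).hasFDerivAt).fderiv]
      simp
      ring
    have key : ⟪v, ∑ a, c a (fderiv ℝ ρ (x - y) (ev g x a) • u y + A a x (ρ (x - y) • u y))⟫_ℝ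
        - volDensity g y * ⟪u y, dir g c A (fun y => (ρ (x - y) * (volDensity g y)⁻¹) • v) y⟫_ℝ
        = ∑ a, (fderiv ℝ ρ (x - y) (ev g x a - ev g y a) * ⟪v, c a (u y)⟫_ℝ + ρ (x - y) *
          (⟪v, c a (A a x (u y))⟫_ℝ - ⟪u y, c a (A a y v)⟫_ℝ - volDensity g y *
            fderiv ℝ (fun z => (volDensity g z)⁻¹) y (ev g y a) * ⟪u y, c a v⟫_ℝ)) := by
      rw [dir_mul ((hρx.mul hsi).differentiable (by simp) y) (differentiableAt_const v)]
      simp only [dir, nab, fderiv_fun_const, Pi.zero_apply, zero_apply, zero_add, hfd, inner_sum,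
        inner_add_right, map_add, map_smul, map_sub, real_inner_smul_right, Finset.mul_sum, mul_add,
        ← Finset.sum_add_distrib, ← Finset.sum_sub_distrib]
      refine Finset.sum_congr rfl fun a _ => ?_
      have h1 : ⟪v, c a (u y)⟫_ℝ = -⟪u y, c a v⟫_ℝ := by rw [real_inner_comm, hd.cl.skew]
      rw [h1]
      field_simp
      ring
    have hρ0 := h.nonneg (x - y)
    have bd : ∀ a, fderiv ℝ ρ (x - y) (ev g x a - ev g y a) * ⟪v, c a (u y)⟫_ℝ + ρ (x - y) *
          (⟪v, c a (A a x (u y))⟫_ℝ - ⟪u y, c a (A a y v)⟫_ℝ - volDensity g y *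
            fderiv ℝ (fun z => (volDensity g z)⁻¹) y (ev g y a) * ⟪u y, c a v⟫_ℝ) ≤
        (L * (‖fderiv ℝ ρ (x - y)‖ * ‖x - y‖) + 3 * B * ρ (x - y)) * (‖v‖ * ‖u y‖) := fun a => by
      have b1 : fderiv ℝ ρ (x - y) (ev g x a - ev g y a) * ⟪v, c a (u y)⟫_ℝ ≤
          ‖fderiv ℝ ρ (x - y)‖ * (L * ‖x - y‖) * (‖v‖ * ‖u y‖) :=
        (le_abs_self _).trans ((abs_mul _ _).trans_le (mul_le_mul
          (((fderiv ℝ ρ (x - y)).le_opNorm _).trans
            (mul_le_mul_of_nonneg_left (hL x y hx hy1 a) (norm_nonneg _)))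
          (inner_c_le hd.cl a _ _) (abs_nonneg _) (by positivity)))
      have b2 : |⟪v, c a (A a x (u y))⟫_ℝ| ≤ ‖v‖ * (B * ‖u y‖) := (inner_c_le hd.cl a _ _).trans
        (mul_le_mul_of_nonneg_left ((A a x).le_of_opNorm_le (hA x hx a) _) (norm_nonneg _))
      have b3 : |⟪u y, c a (A a y v)⟫_ℝ| ≤ ‖u y‖ * (B * ‖v‖) := (inner_c_le hd.cl a _ _).trans
        (mul_le_mul_of_nonneg_left ((A a y).le_of_opNorm_le (hA y hy1 a) _) (norm_nonneg _))
      have b4 : |volDensity g y * fderiv ℝ (fun z => (volDensity g z)⁻¹) y (ev g y a)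
          * ⟪u y, c a v⟫_ℝ| ≤ B * (‖u y‖ * ‖v‖) := (abs_mul _ _).trans_le
        (mul_le_mul (hs y hy1 a) (inner_c_le hd.cl a _ _) (abs_nonneg _) hB0)
      have b5 := mul_le_mul_of_nonneg_left (show ⟪v, c a (A a x (u y))⟫_ℝ - ⟪u y, c a (A a y v)⟫_ℝ
        - volDensity g y * fderiv ℝ (fun z => (volDensity g z)⁻¹) y (ev g y a) * ⟪u y, c a v⟫_ℝ
          ≤ 3 * B * (‖v‖ * ‖u y‖) by
        linarith [(abs_le.1 b2).2, (abs_le.1 b3).1, (abs_le.1 b4).1]) hρ0
      linarith
    have b6 := Finset.sum_le_sum fun a (_ : a ∈ Finset.univ) => bd a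
    rw [← key, Finset.sum_const, Finset.card_univ, Fintype.card_fin, nsmul_eq_mul] at b6
    have b7 : volDensity g y * ⟪k y, (ρ (x - y) * (volDensity g y)⁻¹) • v⟫_ℝ ≤
        B * ρ (x - y) * (‖v‖ * ‖k y‖) := by
      have b8 : ⟪k y, v⟫_ℝ ≤ B * (‖v‖ * ‖k y‖) := (real_inner_le_norm _ _).trans
        ((mul_comm _ _).trans_le (le_mul_of_one_le_left (by positivity) hB))
      calc _ = ρ (x - y) * ⟪k y, v⟫_ℝ := by rw [real_inner_smul_right]; field_simp
        _ ≤ ρ (x - y) * (B * (‖v‖ * ‖k y‖)) := mul_le_mul_of_nonneg_left b8 hρ0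
        _ = _ := by ring
    have p1 : 0 ≤ B * ρ (x - y) * (‖v‖ * ‖u y‖) := by positivity
    have p2 : 0 ≤ n * (L * (‖fderiv ℝ ρ (x - y)‖ * ‖x - y‖) + 3 * B * ρ (x - y))
      * (‖v‖ * ‖k y‖) := by positivity
    simp only [Pi.add_apply]
    nlinarith
  rcases (norm_nonneg v).eq_or_lt with h0 | h0
  · rw [← h0]; exact integral_nonneg hκ0
  · exact le_of_mul_le_mul_left main h0

theorem core (hg : IsRiemannianOn g Set.univ) (hd : SpinData g c A) {u k : E n → S}
    (hu : MemLp u 2 (nu g)) (hk : MemLp k 2 (nu g)) {R : ℝ} (hu0 : ∀ y, R < ‖y‖ → u y = 0)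
    (hk0 : ∀ y, R < ‖y‖ → k y = 0)
    (hw : ∀ ξ, Tst ξ → ∫ x, ⟪u x, dir g c A ξ x⟫_ℝ ∂nu g = ∫ x, ⟪k x, ξ x⟫_ℝ ∂nu g)
    {δ : ℝ} (hδ : 0 < δ) : ∃ ζ, Tst ζ ∧ ∫ x, ‖ζ x - u x‖ ^ 2 ∂nu g ≤ δ ∧
      ∫ x, ‖dir g c A ζ x - k x‖ ^ 2 ∂nu g ≤ δ := by
  have := locFin hg
  obtain ⟨hu2, hui⟩ := memLp_vol hg hu hu0
  obtain ⟨hk2, hki⟩ := memLp_vol hg hk hk0
  obtain ⟨C, hC, hρ⟩ := exists_moll n
  choose ρ hρ using fun j : ℕ => hρ (1 / ((j : ℝ) + 1)) (by positivity)
  have hK := isCompact_closedBall (0 : E n) (R + 1)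
  have hsc := contDiff_volDensity hg
  have hsi : ContDiff ℝ ∞ fun z => (volDensity g z)⁻¹ := hsc.inv fun z => (volDensity_pos hg z).ne'
  obtain ⟨L, hL⟩ := (contDiff_pi.2 (contDiff_ev hg)).contDiffOn.exists_lipschitzOnWith (by simp)
    (convex_closedBall (0 : E n) (R + 1)) hK
  obtain ⟨B₁, hB₁⟩ := hK.exists_bound_of_continuousOn
    (continuous_pi fun a => (hd.A_smooth a).continuous).continuousOn
  obtain ⟨B₂, hB₂⟩ := hK.exists_bound_of_continuousOn (continuous_pi fun a => hsc.continuous.mul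
    ((hsi.continuous_fderiv (by simp)).clm_apply (contDiff_ev hg a).continuous)).continuousOn
  obtain ⟨B₃, hB₃⟩ := hK.exists_bound_of_continuousOn hsc.continuous.continuousOn
  have hz : ∀ j x, R + 1 < ‖x‖ → mol (ρ j) u x = 0 := fun j x hx =>
    (hρ j).mol_zero hu0 x (lt_of_le_of_lt (by
      have : 1 / ((j : ℝ) + 1) ≤ 1 := by
        rw [div_le_one (by positivity)]; linarith [Nat.cast_nonneg (α := ℝ) j]
      linarith) hx)
  have hξ : ∀ j, Tst (mol (ρ j) u) := fun j => ⟨(hρ j).contDiff_mol hui,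
    .intro hK fun x hx => hz j x (by simpa using hx)⟩
  have hts : ∀ j, tsupport (mol (ρ j) u) ⊆ closedBall 0 (R + 1) := fun j =>
    closure_minimal (fun x hx => by
      by_contra h
      exact hx (hz j x (by simpa using h))) isClosed_closedBall
  have sch : ∀ (F : E n → S) (κ f : E n → ℝ) (C : ℝ), Continuous κ → HasCompactSupport κ →
      (∀ z, 0 ≤ κ z) → 0 < C → ∫ z, κ z ≤ C → Integrable f → MemLp f 2 volume →
      (∀ x, R + 1 < ‖x‖ → F x = 0) → (∀ x, ‖x‖ ≤ R + 1 → ‖F x‖ ≤ ∫ y, κ (x - y) * f y) →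
      ∫ x, ‖F x‖ ^ 2 ∂nu g ≤ |B₃| * C ^ 2 * ∫ y, f y ^ 2 := by
    intro F κ f C h1 h2 h3 h4 h5 h6 h7 h8 h9
    rw [integral_nu hg]
    refine schur h1 h2 h3 h4 h5 h6 h7.integrable_sq (abs_nonneg _)
      (fun x => mul_nonneg (volDensity_pos hg x).le (sq_nonneg _)) fun x => ?_
    rcases lt_or_ge (R + 1) ‖x‖ with hx | hx
    · rw [h8 x hx, norm_zero, zero_pow two_ne_zero, mul_zero]
      positivity
    · exact mul_le_mul ((le_abs_self _).trans ((hB₃ x (by simpa using hx)).trans (le_abs_self _)))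
        (pow_le_pow_left₀ (norm_nonneg _) (h9 x hx) 2) (sq_nonneg _) (abs_nonneg _)
  have tp : ∀ ψ : E n → S, Tst ψ → Tendsto (fun j => ∫ x, ⟪ψ x, mol (ρ j) u x⟫_ℝ ∂nu g) atTop
      (𝓝 (∫ x, ⟪ψ x, u x⟫_ℝ ∂nu g)) := fun ψ hψ => by
    have := tendsto_pair hρ hui (hψ.smul hsc).1.continuous (hψ.smul hsc).2
    simpa only [integral_nu hg, real_inner_smul_left, conj_trivial] using this
  set B := max 1 (max B₁ B₂) with hB
  have hB1 : 1 ≤ B := le_max_left _ _
  refine graph_approx (dir g c A) (fun ξ h => (tst_dir hg hd h).memLp)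
    (fun ξ ζ h h' => dir_add h.1 h'.1) (fun t ξ h => dir_smul t h.1) hu hk hξ
    (C₁ := |B₃| * 1 ^ 2 * ∫ y, ‖u y‖ ^ 2)
    (C₂ := |B₃| * (n * L * C + (3 * n + 1) * B) ^ 2 * ∫ y, (‖u y‖ + ‖k y‖) ^ 2)
    (fun j => ?_) (fun j => ?_) tp (fun ψ hψ => ?_) hδ
  · exact sch _ (ρ j) _ 1 (hρ j).smooth.continuous (hρ j).cpt (hρ j).nonneg one_pos (hρ j).one.le
      hui.norm hu2.norm (hz j) fun x _ => (hρ j).norm_mol x
  · have h := hρ j
    have hdc : Continuous (fderiv ℝ (ρ j)) := h.smooth.continuous_fderiv (by simp)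
    have hρc := h.smooth.continuous
    have c1 : HasCompactSupport fun z : E n => ‖fderiv ℝ (ρ j) z‖ * ‖z‖ :=
      (h.cpt.fderiv ℝ).norm.mul_right
    refine sch _ (fun z => n * L * (‖fderiv ℝ (ρ j) z‖ * ‖z‖) + (3 * n + 1) * B * ρ j z) _ _
      (by fun_prop) (c1.mul_left.add h.cpt.mul_left) (fun z => ?_) (by positivity) ?_
      (hui.norm.add hki.norm) (hu2.norm.add hk2.norm)
      (fun x hx => dir_of_notMem fun h => by simpa [hx.not_ge] using hts j h) fun x hx =>
      dir_mol_le hg hd hu hk hu0 hk0 hw L.2 hB1 (fun x y hx hy a => ?_) (fun y hy a => ?_)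
        (fun y hy a => ?_) h hx
    · have := h.nonneg z
      positivity
    · rw [integral_add (((hdc.norm.fun_mul continuous_norm).integrable_of_hasCompactSupport
        c1).const_mul _) ((hρc.integrable_of_hasCompactSupport h.cpt).const_mul _),
        integral_const_mul, integral_const_mul, h.one, mul_one]
      have := mul_le_mul_of_nonneg_left h.comm (show (0 : ℝ) ≤ n * L by positivity)
      linarith
    · have := hL.norm_sub_le (mem_closedBall_zero_iff.2 hx) (mem_closedBall_zero_iff.2 hy)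
      exact (norm_le_pi_norm ((fun a => ev g x a) - fun a => ev g y a) a).trans this
    · exact (norm_le_pi_norm (fun a => A a y) a).trans ((hB₁ y (mem_closedBall_zero_iff.2 hy)).trans
        ((le_max_left _ _).trans (le_max_right _ _)))
    · exact (norm_le_pi_norm (fun a => volDensity g y *
        fderiv ℝ (fun z => (volDensity g z)⁻¹) y (ev g y a)) a).trans
        ((hB₂ y (mem_closedBall_zero_iff.2 hy)).trans ((le_max_right _ _).trans (le_max_right _ _)))
  · simp_rw [sa_int hg hd hψ (hξ _), real_inner_comm (k _), ← hw ψ hψ, real_inner_comm _ (u _)]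
    exact tp _ (tst_dir hg hd hψ)

theorem memLp_smul {μ : Measure (E n)} {f : E n → ℝ} (hf : Continuous f) (hc : HasCompactSupport f)
    {Θ : E n → S} (h : MemLp Θ 2 μ) : MemLp (fun x => f x • Θ x) 2 μ := by
  obtain ⟨B, hB⟩ := hf.bounded_above_of_compact_support hc
  refine (h.norm.const_mul B).mono' (hf.aestronglyMeasurable.smul h.1) (ae_of_all _ fun x => ?_)
  rw [norm_smul]
  exact mul_le_mul_of_nonneg_right (hB x) (norm_nonneg _)

end Fr

open Fr in
theorem fried : FriedStmt := by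
  intro n g hg S _ _ _ c A hd Θ h hΘ hh hw η hη hηc δ hδ
  have := locFin hg
  obtain ⟨R, hR⟩ := hηc.isCompact.isBounded.subset_closedBall 0
  have hR' : ∀ y : E n, R < ‖y‖ → y ∉ tsupport η := fun y hy h => by simpa [hy.not_ge] using hR h
  have m1 := memLp_smul hη.continuous hηc hΘ
  have m2 := memLp_smul hη.continuous hηc hh
  have m3 : MemLp (fun x => ∑ a, fderiv ℝ η x (ev g x a) • c a (Θ x)) 2 (nu g) :=
    memLp_finsetSum _ fun a _ => memLp_smul ((hη.continuous_fderiv (by simp)).clm_apply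
      (contDiff_ev hg a).continuous) (.intro (hηc.fderiv ℝ).isCompact fun x hx => by
        simp [image_eq_zero_of_notMem_tsupport hx]) ((c a).comp_memLp' hΘ)
  refine core hg hd m1 (m2.add m3) (R := R) (fun y hy => ?_) (fun y hy => ?_) (fun ξ hξ => ?_) hδ
  · simp [image_eq_zero_of_notMem_tsupport (hR' y hy)]
  · have : fderiv ℝ η y = 0 := by
      by_contra h
      exact hR' y hy (support_fderiv_subset ℝ h)
    simp [image_eq_zero_of_notMem_tsupport (hR' y hy), this]
  · have e := hw _ (hξ.smul hη)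
    have e1 : ∀ x, ⟪Θ x, dir g c A (fun x => η x • ξ x) x⟫_ℝ = ⟪η x • Θ x, dir g c A ξ x⟫_ℝ
        - ⟪∑ a, fderiv ℝ η x (ev g x a) • c a (Θ x), ξ x⟫_ℝ := fun x => by
      rw [dir_mul (hη.differentiable (by simp) x) (hξ.1.differentiable (by simp) x)]
      simp only [inner_add_right, inner_sum, sum_inner, real_inner_smul_left, real_inner_smul_right,
        hd.cl.skew, mul_neg, Finset.sum_neg_distrib, sub_neg_eq_add]
    simp_rw [e1, real_inner_smul_right, ← real_inner_smul_left] at e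
    rw [integral_sub (int_inner m1 (tst_dir hg hd hξ).memLp) (int_inner m3 hξ.memLp)] at e
    simp_rw [Pi.add_apply, inner_add_left]
    rw [integral_add (int_inner m2 hξ.memLp) (int_inner m3 hξ.memLp)]
    linarith

end Crest.Agent.N346.Sp
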